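import Vale.Agent.P333.PTa

/-! The algorithm on lists and its running time. -/

namespace Vale.Agent.P324

open Vale.Agent.Lib.H23 Vale.Agent.P333

abbrev LS : Type := List ℕ
abbrev Rl : Type := List (ℕ × ℕ)

def mem (a : LS) (x : ℕ) : Bool := a.any fun y => eqb y x
def pp (W : LS) : Rl := W.flatMap fun x => W.map fun y => (x, y)
def rel (P : Rl) (x y : ℕ) : Bool := P.any fun p => eqb p.1 x && eqb p.2 y

def wstep (W : LS) (P : Rl) (z : ℕ) : Rl :=
  (pp W).filter fun p => rel P p.1 p.2 || (rel P p.1 z && rel P z p.2)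

def clo (adj : List LS) : Rl :=
  (rg adj).foldl (wstep (rg adj)) ((pp (rg adj)).filter fun p => mem (adj.getD p.1 []) p.2)

def rank (W : LS) (P : Rl) (x : ℕ) : ℕ := (W.filter fun y => rel P y x).length * W.length + x

def atoms (W : LS) (P : Rl) : List LS :=
  W :: W.flatMap fun x => [W.filter fun y => rel P x y, W.filter fun y => rel P y x,
    W.filter fun y => eqb y x, W.filter fun y => leb (rank W P y) (rank W P x)]

def grow (W : LS) (A F : List LS) : List LS :=
  F.flatMap fun s => s :: A.flatMap fun a => [W.filter fun x => mem s x || mem a x,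
    W.filter fun x => mem s x && mem a x, W.filter fun x => mem s x && !mem a x]

def cstep (s : ℕ × LS × List LS × List LS) : ℕ × LS × List LS × List LS :=
  bif eqb s.1 0 then s else (s.1 - 1, s.2.1, s.2.2.1, grow s.2.1 s.2.2.1 s.2.2.2)

def chain (pad : List Unit) (W : LS) (A : List LS) (r : ℕ) : List LS :=
  (padIter cstep pad (r, W, A, [[]])).2.2.2

def rest (W X A B : LS) : LS := W.filter fun x => mem X x && !(mem A x || mem B x)

def okb (W : LS) (P : Rl) (m : ℕ) (X A B : LS) : Bool :=
  leb (rest W X A B).length m && P.all fun p =>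
    !((mem (rest W X A B) p.1 || mem B p.1) && (mem A p.2 || mem (rest W X A B) p.2))

def round (W : LS) (P : Rl) (m : ℕ) (F : List LS) (tab : List (LS × ℕ)) (t : ℕ) :
    List (LS × ℕ) :=
  tab ++ (F.filter fun X => tab.any fun a => tab.any fun b =>
    leb (a.2 + b.2) t && okb W P m X a.1 b.1).map fun X => (X, t + 1)

def answer (W : LS) (P : Rl) (m T : ℕ) (F : List LS) : Bool :=
  ((W.take T).foldl (round W P m F) [([], 0)]).any fun a => W.all fun x => mem a.1 x

def kk (adj : List LS) : ℕ := adj.length.size + 1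

def family (pad : List Unit) (m : ℕ) (adj : List LS) : List LS :=
  chain pad (rg adj) (chain pad (rg adj) (chain pad (rg adj) (atoms (rg adj) (clo adj))
    (2 * (m * kk adj) + 2 * m + 2)) (6 * kk adj + 1)) 2

def alg (x : List Unit × ℕ × ℕ × List LS) : Bool :=
  answer (rg x.2.2.2) (clo x.2.2.2) x.2.1 x.2.2.1 (family x.1 x.2.1 x.2.2.2)

def expo (x : ℕ × ℕ × List LS) : ℕ := 600 * ((x.1 + 1) * (kk x.2.2 * kk x.2.2 * kk x.2.2))

variable {α : Type} [Enc α]

@[fun_prop] theorem pt_mem {a : α → LS} {y : α → ℕ} (ha : PT a) (hy : PT y) :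
    PT (fun x => mem (a x) (y x)) := by unfold mem; fun_prop

@[fun_prop] theorem pt_pp {a : α → LS} (ha : PT a) : PT (fun x => pp (a x)) := by
  unfold pp; fun_prop

@[fun_prop] theorem pt_rel {a : α → Rl} {y z : α → ℕ} (ha : PT a) (hy : PT y) (hz : PT z) :
    PT (fun x => rel (a x) (y x) (z x)) := by unfold rel; fun_prop

@[fun_prop] theorem pt_clo {a : α → List LS} (ha : PT a) : PT (fun x => clo (a x)) := by
  have key : PT clo := by
    refine pt_fold (f := fun adj => wstep (rg adj)) (fun p => pp (rg p.1))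
      (by unfold wstep; fun_prop) (by fun_prop) (by fun_prop) (by fun_prop) fun x s a => ?_
    have := sz_sublist (List.filter_sublist (l := pp (rg x))
      (p := fun p => rel s p.1 p.2 || (rel s p.1 a && rel s a p.2)))
    unfold wstep
    simp only
    omega
  exact PT.comp key ha

@[fun_prop] theorem pt_rank {w : α → LS} {a : α → Rl} {y : α → ℕ} (hw : PT w) (ha : PT a)
    (hy : PT y) : PT (fun x => rank (w x) (a x) (y x)) := by unfold rank; fun_prop

@[fun_prop] theorem pt_atoms {w : α → LS} {a : α → Rl} (hw : PT w) (ha : PT a) :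
    PT (fun x => atoms (w x) (a x)) := by unfold atoms; fun_prop

@[fun_prop] theorem pt_grow {w : α → LS} {a f : α → List LS} (hw : PT w) (ha : PT a)
    (hf : PT f) : PT (fun x => grow (w x) (a x) (f x)) := by unfold grow; fun_prop

@[fun_prop] theorem pt_chain {p : α → List Unit} {w : α → LS} {a : α → List LS} {r : α → ℕ}
    (hp : PT p) (hw : PT w) (ha : PT a) (hr : PT r) :
    PT (fun x => chain (p x) (w x) (a x) (r x)) :=
  (PT.padIter (step := cstep) (by unfold cstep; fun_prop) hp
    (s := fun x => (r x, w x, a x, [[]])) (by fun_prop)).snd.snd.snd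

@[fun_prop] theorem pt_rest {w y a b : α → LS} (hw : PT w) (hy : PT y) (ha : PT a) (hb : PT b) :
    PT (fun x => rest (w x) (y x) (a x) (b x)) := by unfold rest; fun_prop

@[fun_prop] theorem pt_okb {w y a b : α → LS} {p : α → Rl} {m : α → ℕ} (hw : PT w) (hp : PT p)
    (hm : PT m) (hy : PT y) (ha : PT a) (hb : PT b) :
    PT (fun x => okb (w x) (p x) (m x) (y x) (a x) (b x)) := by unfold okb; fun_prop

@[fun_prop] theorem pt_answer {w : α → LS} {p : α → Rl} {m T : α → ℕ} {F : α → List LS}
    (hw : PT w) (hp : PT p) (hm : PT m) (hT : PT T) (hF : PT F) :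
    PT (fun x => answer (w x) (p x) (m x) (T x) (F x)) := by
  have key : PT (fun x => ((w x).take (T x)).foldl (round (w x) (p x) (m x) (F x)) [([], 0)]) := by
    refine pt_fold (f := fun x => round (w x) (p x) (m x) (F x))
      (fun q => (F q.1).map fun X => (X, q.2 + 1))
      (by unfold round; fun_prop) (by fun_prop) (by fun_prop) (by fun_prop) fun x s a => ?_
    unfold round
    generalize (fun X => s.any fun a' => s.any fun b =>
      leb (a'.2 + b.2) a && okb (w x) (p x) (m x) X a'.1 b.1) = q
    have h1 := sz_append s (((F x).filter q).map fun X => (X, a + 1))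
    have h2 := sz_sublist ((List.filter_sublist (l := F x) (p := q)).map fun X => (X, a + 1))
    simp only
    omega
  unfold answer
  fun_prop

@[fun_prop] theorem pt_kk {a : α → List LS} (ha : PT a) : PT (fun x => kk (a x)) := by
  unfold kk; fun_prop

theorem pt_alg : PT alg := by unfold alg family; fun_prop

theorem pt_expo : PT expo := by unfold expo; fun_prop

theorem cstep_iter (W : LS) (A : List LS) (i : ℕ) : ∀ (r : ℕ) (F : List LS), i ≤ r →
    cstep^[i] (r, W, A, F) = (r - i, W, A, (grow W A)^[i] F) := by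
  induction i with
  | zero => intro r F _; rfl
  | succ i ih =>
    intro r F h
    have e : cstep (r, W, A, F) = (r - 1, W, A, grow W A F) := by
      have : r ≠ 0 := by omega
      simp [cstep, this]
    rw [Function.iterate_succ_apply, e, ih _ _ (by omega), Function.iterate_succ_apply,
      Nat.sub_sub, add_comm 1 i]

theorem length_grow (W : LS) (A F : List LS) :
    (grow W A F).length = F.length * (3 * A.length + 1) := by
  simp [grow, List.length_flatMap, mul_comm]

theorem grow_iter (W : LS) {A : List LS} {a : ℕ} (h : A.length ≤ 2 ^ a) (i : ℕ) :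
    ((grow W A)^[i] [[]]).length ≤ 2 ^ ((a + 2) * i) ∧
      ∀ s ∈ (grow W A)^[i] [[]], s.Sublist W := by
  induction i with
  | zero => simp
  | succ i ih =>
    rw [Function.iterate_succ_apply']
    refine ⟨?_, fun s hs => ?_⟩
    · rw [length_grow, mul_add (a + 2), pow_add, mul_one]
      refine Nat.mul_le_mul ih.1 ?_
      have : 0 < 2 ^ a := by positivity
      rw [pow_add]
      omega
    · simp only [grow, List.mem_flatMap, List.mem_cons, List.not_mem_nil, or_false] at hs
      obtain ⟨s', h1, rfl | ⟨_, -, rfl | rfl | rfl⟩⟩ := hs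
      exacts [ih.2 _ h1, List.filter_sublist, List.filter_sublist, List.filter_sublist]

theorem chain_eq {W : LS} {A : List LS} {a b e r : ℕ} (h : A.length ≤ 2 ^ a)
    (hA : ∀ s ∈ A, s.Sublist W) (hb : sz W + 1 ≤ 2 ^ b) (he : (a + 2) * r + a + b + r + 6 ≤ e) :
    chain (List.replicate (2 ^ e) ()) W A r = (grow W A)^[r] [[]] := by
  obtain ⟨d, rfl⟩ : ∃ d, e = d + 3 := ⟨e - 3, by omega⟩
  have pw : ∀ k, k ≤ d → 2 ^ k ≤ 2 ^ d := fun k hk => Nat.pow_le_pow_right (by omega) hk
  have h1 : r < 2 ^ r := Nat.lt_two_pow_self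
  have h2 := pw (r + 3) (by omega)
  have h3 := pw b (by omega)
  have h4 := pw (a + b) (by omega)
  have h5 := pw ((a + 2) * r + b) (by omega)
  rw [pow_add] at h2 h4 h5
  unfold chain
  rw [padIter_eq (N := r), cstep_iter _ _ _ _ _ le_rfl]
  · rw [List.length_replicate, pow_add]; omega
  · intro i hi
    rw [cstep_iter _ _ _ _ _ hi.le, List.length_replicate, pow_add]
    obtain ⟨g1, g2⟩ := grow_iter W h i
    have k1 := sz_nat_le (lt_of_le_of_lt (Nat.sub_le r i) h1)
    have k2 := sz_list_le fun s hs => sz_sublist (hA s hs)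
    have k3 := sz_list_le fun s hs => sz_sublist (g2 s hs)
    have k4 := Nat.mul_le_mul h hb
    have k5 := Nat.mul_le_mul (g1.trans (Nat.pow_le_pow_right (by omega)
      (Nat.mul_le_mul_left (a + 2) hi.le))) hb
    simp only [sz_pair]
    omega
  · rw [cstep_iter _ _ _ _ _ le_rfl]
    simp [cstep]

theorem family_eq (m T : ℕ) (adj : List LS) :
    family (List.replicate (2 ^ expo (m, T, adj)) ()) m adj =
      (grow (rg adj) ((grow (rg adj) ((grow (rg adj) (atoms (rg adj) (clo adj)))^[
        2 * (m * kk adj) + 2 * m + 2] [[]]))^[6 * kk adj + 1] [[]]))^[2] [[]] := by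
  have hn : adj.length < 2 ^ kk adj :=
    (Nat.lt_size_self _).trans_le (Nat.pow_le_pow_right (by omega) (by simp [kk]))
  have hK : 1 ≤ kk adj := by simp [kk]
  unfold family expo
  simp only
  generalize kk adj = K at *
  have hb : sz (rg adj) + 1 ≤ 2 ^ (2 * K + 3) := by
    have h1 := sz_list_le (l := rg adj) (B := 4 * K + 1) fun a ha =>
      sz_nat_le (lt_trans (by simpa [rg] using ha) hn)
    have h2 : K < 2 ^ K := Nat.lt_two_pow_self
    have h3 : (rg adj).length = adj.length := List.length_range
    rw [h3] at h1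
    rw [pow_add, two_mul, pow_add]
    nlinarith
  have h0 : (atoms (rg adj) (clo adj)).length ≤ 2 ^ (K + 3) := by
    simp only [atoms, rg, List.length_cons, List.length_flatMap, List.length_nil, List.map_const',
      List.length_range, List.sum_replicate, smul_eq_mul, pow_add]
    omega
  have s0 : ∀ s ∈ atoms (rg adj) (clo adj), s.Sublist (rg adj) := by
    intro s hs
    simp only [atoms, List.mem_flatMap, List.mem_cons, List.not_mem_nil, or_false] at hs
    obtain rfl | ⟨_, -, rfl | rfl | rfl | rfl⟩ := hs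
    exacts [List.Sublist.refl _, List.filter_sublist, List.filter_sublist, List.filter_sublist,
      List.filter_sublist]
  obtain ⟨K, rfl⟩ : ∃ K', K = K' + 1 := ⟨K - 1, by omega⟩
  obtain ⟨h1, s1⟩ := grow_iter (rg adj) h0 (2 * (m * (K + 1)) + 2 * m + 2)
  obtain ⟨h2, s2⟩ := grow_iter (rg adj) h1 (6 * (K + 1) + 1)
  rw [chain_eq h0 s0 hb, chain_eq h1 s1 hb, chain_eq h2 s2 hb] <;> ring_nf <;> omega

end Vale.Agent.P324
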