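import Vale.Agent.P333.Code

/-! The binary code of a scheduling instance. -/

namespace Vale.Agent.P324

open Vale.Agent.P333

def bPair {α β : Type} (f : α → List Bool) (g : β → List Bool) (p : α × β) : List Bool :=
  true :: (f p.1 ++ g p.2)

/-- number of machines, number of slots, lists of out-neighbours -/
def code (m T : ℕ) (adj : List (List ℕ)) : List Bool :=
  bPair bNat (bPair bNat (bList (bList bNat))) (m, T, adj)

end Vale.Agent.P324
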