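import Vale.Agent.P324.Name

/-! The recursion on named subproblems is sound and complete. -/

namespace Vale.Agent.P324

open Finset

variable {V : Type} [DecidableEq V] {R : V → V → Prop} {m K : ℕ}

/-- `X` is covered by `A`, one slot, and `B` -/
def Ok (R : V → V → Prop) (m : ℕ) (X A B : Finset V) : Prop :=
  (X \ (A ∪ B)).card ≤ m ∧ ∀ x y, R x y → (x ∈ X \ (A ∪ B) ∨ x ∈ B) →
    (y ∈ A ∨ y ∈ X \ (A ∪ B)) → False

inductive G (R : V → V → Prop) (m : ℕ) (F : Finset V → Prop) : Finset V → ℕ → Prop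
  | nil : G R m F ∅ 0
  | split {X A B a b t} : G R m F A a → G R m F B b → F X → Ok R m X A B → a + b ≤ t →
      G R m F X (t + 1)

theorem G.sound {F : Finset V → Prop} {X : Finset V} {t : ℕ} (h : G R m F X t) :
    Sched R m X t := by
  induction h with
  | nil => exact sched_empty
  | @split X A B a b t _ _ _ hok hab ihA ihB =>
    have h1 := sched_one (R := R) hok.1 fun x hx y hy hr => hok.2 x y hr (Or.inl hx) (Or.inr hy)
    have h2 := (ihA.concat h1 fun x hx y hy hr => hok.2 x y hr (Or.inl hx) (Or.inl hy)).concat ihB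
      fun x hx y hy hr => hok.2 x y hr (Or.inr hx) (mem_union.1 hy)
    refine h2.mono (fun x hx => ?_) (by omega)
    simp only [mem_union, mem_sdiff]
    tauto

theorem G.imp {F F' : Finset V → Prop} (hF : ∀ X, F X → F' X) {X : Finset V} {t : ℕ}
    (h : G R m F X t) : G R m F' X t := by
  induction h with
  | nil => exact G.nil
  | split _ _ h1 h2 h3 ihA ihB => exact G.split ihA ihB (hF _ h1) h2 h3

variable [Fintype V]

/-- the basic sets -/
structure Atoms (R : V → V → Prop) (rk : V → ℕ) (A : Finset V → Prop) : Prop where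
  all : A univ
  su : ∀ x, A (sc R {x})
  pr : ∀ x, A (sc (flip R) {x})
  si : ∀ x, A {x}
  th : ∀ x, A (univ.filter fun y => rk y ≤ rk x)

theorem exists_half {rk : V → ℕ} {A : Finset V → Prop} (hA : Atoms R rk A)
    (hi : Function.Injective rk) (Z : Finset V) {k : ℕ} (hZ : Z.card ≤ 2 ^ (k + 1)) :
    ∃ D : Finset V, Ch A 1 D ∧ (∀ x y, rk x ≤ rk y → y ∈ D → x ∈ D) ∧ (Z ∩ D).card ≤ 2 ^ k ∧
      (Z \ D).card ≤ 2 ^ k := by
  by_cases h : Z.card ≤ 2 ^ k
  · exact ⟨∅, Ch.nil.skip, by simp, by simp, by simpa using h⟩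
  obtain ⟨x, -, e⟩ := exists_threshold hi Z (2 ^ k) Nat.one_le_two_pow (by omega)
  have e' : Z ∩ (univ.filter fun y => rk y ≤ rk x) = Z.filter fun y => rk y ≤ rk x := by
    ext y; simp
  refine ⟨_, Ch.one (hA.th x), fun y z h hz => ?_, by rw [e', e], ?_⟩
  · simp only [mem_filter, mem_univ, true_and] at hz ⊢
    omega
  · have := card_sdiff_add_card_inter Z (univ.filter fun y => rk y ≤ rk x)
    rw [e', e, pow_succ] at *
    omega

theorem complete_aux (htr : ∀ x y z, R x y → R y z → R x z) {rk : V → ℕ}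
    {A : Finset V → Prop} (hA : Atoms R rk A) (hi : Function.Injective rk)
    (hrk : ∀ x y, R x y → rk x ≤ rk y) (hK : Fintype.card V ≤ 2 ^ K) (hK1 : 1 ≤ K) (T : ℕ) :
    ∀ (X L M Y Z : Finset V) (k l : ℕ), X = L ∩ M →
      Side R m K (Ch A (2 * (m * K) + 2 * m + 2)) X L Y k →
      Side (flip R) m K (Ch A (2 * (m * K) + 2 * m + 2)) X M Z l → Sched R m X T →
      ∃ t ≤ T, t ≤ X.card ∧
        G R m (Ch (Ch (Ch A (2 * (m * K) + 2 * m + 2)) (6 * K + 1)) 2) X t := by
  have htr' : ∀ x y z, flip R x y → flip R y z → flip R x z := fun x y z h1 h2 => htr _ _ _ h2 h1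
  induction T using Nat.strong_induction_on with
  | _ T ih =>
    intro X L M Y Z k l e hL hM hs
    rcases T with _ | T
    · obtain rfl := hs.eq_empty
      exact ⟨0, le_rfl, by simp, G.nil⟩
    obtain ⟨L, Y, k, e, hL⟩ := hL.reset htr hK hK1 (fun j =>
      (((Ch.nil.un (hA.su j)).un (hA.si j)).mono (by omega)).congr (by simp)) e
    rw [inter_comm] at e
    obtain ⟨M, Z, l, e', hM⟩ := hM.reset htr' hK hK1 (fun j =>
      (((Ch.nil.un (hA.pr j)).un (hA.si j)).mono (by omega)).congr (by simp)) e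
    have e : X = L ∩ M := by rw [e', inter_comm]
    have hY : Y.card ≤ m * K := by
      obtain ⟨_, -, -, -, -, -, h, -⟩ := hL
      exact h.trans (Nat.mul_le_mul_left _ (by omega))
    have hZ : Z.card ≤ m * K := by
      obtain ⟨_, -, -, -, -, -, h, -⟩ := hM
      exact h.trans (Nat.mul_le_mul_left _ (by omega))
    obtain ⟨D, d1, d2, d3, d4⟩ := exists_half hA hi ((X \ sc R Y) \ sc (flip R) Z)
      (k := min k l) (by
        obtain ⟨_, -, -, -, -, -, -, h, -⟩ := hL
        obtain ⟨_, -, -, -, -, -, -, h', -⟩ := hM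
        rcases le_total k l with c | c
        · rw [min_eq_left c]
          exact (card_le_card sdiff_subset).trans h
        · rw [min_eq_right c]
          exact (card_le_card (sdiff_subset_sdiff sdiff_subset Subset.rfl)).trans h')
    obtain ⟨u, hu⟩ : ∃ u, u = (D \ sc R Y) ∪ sc (flip R) Z := ⟨_, rfl⟩
    have cu : Ch A (2 * (m * K) + 2 * m + 2) u :=
      hu ▸ ((d1.df_sc hA.su Y).un_sc hA.pr Z).mono (by omega)
    have du : ∀ x y, R x y → y ∈ u → x ∈ u := by
      intro x y hr hy
      simp only [hu, mem_union, mem_sdiff, mem_sc, flip] at hy ⊢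
      rcases hy with ⟨h1, h2⟩ | ⟨s, h1, h2⟩
      · exact Or.inl ⟨d2 _ _ (hrk _ _ hr) h1, fun ⟨s, h3, h4⟩ => h2 ⟨s, h3, htr _ _ _ h4 hr⟩⟩
      · exact Or.inr ⟨s, h1, htr _ _ _ hr h2⟩
    obtain ⟨S, P, Q, a, b, hab, sP, sQ, hm, eX, dPS, dPQ, dSQ, no, cP, cQ⟩ := split htr u du hs
    have mX : ∀ x, x ∈ X ↔ x ∈ P ∨ x ∈ S ∨ x ∈ Q := fun x => by rw [eX]; simp
    rcases S.eq_empty_or_nonempty with rfl | hne
    · have h1 := sP.concat sQ fun x hx y hy => no x (by simp [hx]) y (by simp [hy])
      obtain ⟨t, h2, h3⟩ := ih T (by omega) X L M Y Z _ _ e hL hM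
        (h1.mono (by rw [eX]; simp) hab)
      exact ⟨t, by omega, h3⟩
    have hSX : S ⊆ X := fun x hx => by simp [mX, hx]
    have c1 : ∀ R' : V → V → Prop, (∀ x, A (sc R' {x})) →
        Ch A (2 * (m * K) + 2 * m + 2) (sc R' S) := fun R' h =>
      ((Ch.nil.un_sc h S).mono (by omega)).congr (by simp)
    have c2 : ∀ R' : V → V → Prop, (∀ x, A (sc R' {x})) →
        Ch A (2 * (m * K) + 2 * m + 2) (sc R' S ∪ S) := fun R' h =>
      (((Ch.nil.un_sc h S).un_set hA.si S).mono (by omega)).congr (by simp)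
    obtain ⟨L', eQ, hL'⟩ := hL.step (B := Q) (w := univ \ u) htr e hSX hm
      (fun x y hr hx => by
        simp only [mem_sdiff, mem_univ, true_and] at hx ⊢
        exact fun h => hx (du _ _ hr h))
      (fun r s h => (h.df cu).congr (by simp)) (c1 _ hA.su) (c2 _ hA.pr)
      (fun x => by
        simp only [mem_union, mem_sdiff, mem_univ, true_and, mem_sc, flip, mX]
        constructor
        · intro hx
          refine ⟨by simp [hx], ?_⟩
          rcases cQ x hx with h | h
          · refine Or.inr ⟨h, ?_⟩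
            rintro (⟨s, h1, h2⟩ | h1)
            exacts [no x (by simp [hx]) s (by simp [h1]) h2, disjoint_left.1 dSQ h1 hx]
          · exact Or.inl h
        · rintro ⟨hx | hx | hx, ⟨s, h1, h2⟩ | ⟨h1, h2⟩⟩
          · exact (no s (by simp [h1]) x (by simp [hx]) h2).elim
          · exact (cP x hx).elim (fun h => (h1 h).elim) fun h => (h2 (Or.inl h)).elim
          · exact (no s (by simp [h1]) x (by simp [hx]) h2).elim
          · exact (h2 (Or.inr hx)).elim
          · exact hx
          · exact hx)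
      ((card_le_card fun x hx => by
          simp only [hu, mem_union, mem_sdiff, mem_inter, mem_univ, true_and] at hx ⊢
          tauto).trans (d4.trans (Nat.pow_le_pow_right (by omega) (min_le_left _ _))))
    obtain ⟨M', eP, hM'⟩ := hM.step (B := P) (w := u) htr' e' hSX hm
      (fun x y hr hx => du _ _ hr hx) (fun r s h => h.it cu) (c1 _ hA.pr) (c2 _ hA.su)
      (fun x => by
        simp only [mem_union, mem_sc, flip, mX]
        constructor
        · intro hx
          refine ⟨by simp [hx], ?_⟩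
          rcases cP x hx with h | h
          · refine Or.inr ⟨h, ?_⟩
            rintro (⟨s, h1, h2⟩ | h1)
            exacts [no s (by simp [h1]) x (by simp [hx]) h2, disjoint_left.1 dPS hx h1]
          · exact Or.inl h
        · rintro ⟨hx | hx | hx, ⟨s, h1, h2⟩ | ⟨h1, h2⟩⟩
          · exact hx
          · exact hx
          · exact (no x (by simp [hx]) s (by simp [h1]) h2).elim
          · exact (h2 (Or.inr hx)).elim
          · exact (no x (by simp [hx]) s (by simp [h1]) h2).elim
          · exact (cQ x hx).elim (fun h => (h h1).elim) fun h => (h2 (Or.inl h)).elim)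
      ((card_le_card fun x hx => by
          simp only [hu, mem_union, mem_sdiff, mem_inter] at hx ⊢
          tauto).trans (d3.trans (Nat.pow_le_pow_right (by omega) (min_le_right _ _))))
    obtain ⟨t1, h1, h2, h3⟩ := ih a (by omega) P L M' Y _ _ _ (by rw [eP, inter_comm])
      (hL.sub fun x hx => by simp [mX, hx]) hM' sP
    obtain ⟨t2, h4, h5, h6⟩ := ih b (by omega) Q L' M _ Z _ _ eQ hL'
      (hM.sub fun x hx => by simp [mX, hx]) sQ
    have eS : X \ (P ∪ Q) = S := by
      ext x
      have : x ∈ P → x ∉ S := fun h => disjoint_left.1 dPS h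
      have : x ∈ S → x ∉ Q := fun h => disjoint_left.1 dSQ h
      simp only [mem_sdiff, mem_union, mX]
      tauto
    refine ⟨t1 + t2 + 1, by omega, ?_, G.split h3 h6 ?_ ⟨eS ▸ hm, fun x y hr hx hy => ?_⟩ le_rfl⟩
    · have := hne.card_pos
      rw [eX, card_union_of_disjoint (disjoint_union_left.2 ⟨dPQ, dSQ⟩),
        card_union_of_disjoint dPS]
      omega
    · obtain ⟨_, -, -, -, -, -, -, -, -, h⟩ := hL
      obtain ⟨_, -, -, -, -, -, -, -, -, h'⟩ := hM
      exact ((Ch.one (h.mono (by omega))).it (h'.mono (by omega))).congr (by simp [e])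
    · rw [eS] at hx hy
      exact no x (mem_union.2 hx) y (mem_union.2 hy) hr

theorem complete (htr : ∀ x y z, R x y → R y z → R x z) {rk : V → ℕ}
    {A : Finset V → Prop} (hA : Atoms R rk A) (hi : Function.Injective rk)
    (hrk : ∀ x y, R x y → rk x ≤ rk y) (hK : Fintype.card V ≤ 2 ^ K) (hK1 : 1 ≤ K) {T : ℕ}
    (h : Sched R m univ T) : ∃ t ≤ T, t ≤ Fintype.card V ∧
      G R m (Ch (Ch (Ch A (2 * (m * K) + 2 * m + 2)) (6 * K + 1)) 2) univ t := by
  have c : Ch (Ch A (2 * (m * K) + 2 * m + 2)) (3 * K + 1) univ :=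
    (Ch.one ((Ch.one hA.all).mono (by omega))).mono (by omega)
  exact complete_aux htr hA hi hrk hK hK1 T univ univ univ ∅ ∅ K K (by simp)
    (Side.fresh hK (fun _ _ _ _ => mem_univ _) c) (Side.fresh hK (fun _ _ _ _ => mem_univ _) c) h

end Vale.Agent.P324
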