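import Vale.Agent.P324.Alg
import Vale.Agent.P324.Rec

/-! Correctness of the algorithm. -/

namespace Vale.Agent.P324

open Vale.Agent.Lib.H23 Vale.Agent.P333 Finset

variable {n : ℕ}

def dec (n : ℕ) (a : LS) : Finset (Fin n) := univ.filter fun i => i.val ∈ a

@[simp] theorem mem_dec {a : LS} {i : Fin n} : i ∈ dec n a ↔ i.val ∈ a := by simp [dec]

@[simp] theorem mem_iff {a : LS} {x : ℕ} : mem a x = true ↔ x ∈ a := by simp [mem]

@[simp] theorem mem_false {a : LS} {x : ℕ} : mem a x = false ↔ x ∉ a := by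
  rw [← mem_iff, Bool.not_eq_true]

@[simp] theorem leb_iff {x y : ℕ} : leb x y = true ↔ x ≤ y := by simp [leb]

theorem rel_iff {P : Rl} {x y : ℕ} : rel P x y = true ↔ (x, y) ∈ P := by
  simp only [rel, List.any_eq_true, Bool.and_eq_true, eqb_eq, decide_eq_true_eq]
  exact ⟨fun ⟨p, h, h1, h2⟩ => by rw [← h1, ← h2]; exact h, fun h => ⟨_, h, rfl, rfl⟩⟩

theorem mem_pp {p : ℕ × ℕ} : p ∈ pp (List.range n) ↔ p.1 < n ∧ p.2 < n := by
  simp only [pp, List.mem_flatMap, List.mem_map, List.mem_range]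
  exact ⟨fun ⟨_, h1, _, h2, e⟩ => e ▸ ⟨h1, h2⟩, fun h => ⟨_, h.1, _, h.2, rfl⟩⟩

theorem card_dec (p : ℕ → Bool) :
    (dec n ((List.range n).filter p)).card = ((List.range n).filter p).length := by
  rw [← List.toFinset_card_of_nodup (List.nodup_range.filter _), ← card_map Fin.valEmbedding]
  congr 1
  ext x
  simp only [mem_map, mem_dec, Fin.valEmbedding_apply, List.mem_toFinset]
  exact ⟨fun ⟨_, h, e⟩ => e ▸ h,
    fun h => ⟨⟨x, List.mem_range.1 (List.mem_of_mem_filter h)⟩, h, rfl⟩⟩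

/-- the relation on `Fin n` given by a list of pairs -/
def RP (n : ℕ) (P : Rl) (x y : Fin n) : Prop := (x.val, y.val) ∈ P

theorem wfold (Q : ℕ → ℕ → Prop) (hQ : ∀ x y z, Q x y → Q y z → Q x z) (l : List ℕ) :
    ∀ P : Rl, (∀ p ∈ P, p.1 < n ∧ p.2 < n ∧ Q p.1 p.2) →
    (∀ p ∈ l.foldl (wstep (List.range n)) P, p.1 < n ∧ p.2 < n ∧ Q p.1 p.2) ∧
    (∀ p ∈ P, p ∈ l.foldl (wstep (List.range n)) P) ∧
    ∀ z, (z ∈ l ∨ ∀ x y, (x, z) ∈ P → (z, y) ∈ P → (x, y) ∈ P) →
      ∀ x y, (x, z) ∈ l.foldl (wstep (List.range n)) P → (z, y) ∈ l.foldl (wstep (List.range n)) P →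
        (x, y) ∈ l.foldl (wstep (List.range n)) P := by
  induction l with
  | nil => intro P h; exact ⟨h, fun _ h => h, fun z hz => hz.resolve_left (by simp)⟩
  | cons w l ih =>
    intro P h
    have e : ∀ x y, (x, y) ∈ wstep (List.range n) P w ↔
        (x, y) ∈ P ∨ ((x, w) ∈ P ∧ (w, y) ∈ P) := by
      intro x y
      simp only [wstep, List.mem_filter, mem_pp, Bool.or_eq_true, Bool.and_eq_true, rel_iff]
      refine ⟨fun h => h.2, fun h' => ⟨?_, h'⟩⟩
      rcases h' with h1 | ⟨h1, h2⟩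
      exacts [⟨(h _ h1).1, (h _ h1).2.1⟩, ⟨(h _ h1).1, (h _ h2).2.1⟩]
    obtain ⟨i1, i2, i3⟩ := ih (wstep (List.range n) P w) (fun p hp => by
      rcases (e p.1 p.2).1 hp with h1 | ⟨h1, h2⟩
      exacts [h _ h1, ⟨(h _ h1).1, (h _ h2).2.1, hQ _ _ _ (h _ h1).2.2 (h _ h2).2.2⟩])
    refine ⟨i1, fun p hp => i2 p ((e p.1 p.2).2 (Or.inl hp)), fun z hz => i3 z ?_⟩
    rcases hz with hz | hz
    · rcases List.mem_cons.1 hz with rfl | hz
      · refine Or.inr fun x y => ?_
        simp only [e]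
        tauto
      · exact Or.inl hz
    · refine Or.inr fun x y => ?_
      simp only [e]
      rintro (h1 | ⟨h1, h2⟩) (h3 | ⟨h3, h4⟩)
      exacts [Or.inl (hz _ _ h1 h3), Or.inr ⟨hz _ _ h1 h3, h4⟩, Or.inr ⟨h1, hz _ _ h2 h3⟩,
        Or.inr ⟨h1, h4⟩]

theorem clo_spec (adj : List LS) (Q : ℕ → ℕ → Prop) (hQ : ∀ x y z, Q x y → Q y z → Q x z)
    (h : ∀ x y, x < adj.length → y < adj.length → y ∈ adj.getD x [] → Q x y) :
    (∀ p ∈ clo adj, p.1 < adj.length ∧ p.2 < adj.length ∧ Q p.1 p.2) ∧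
    (∀ x y, x < adj.length → y < adj.length → y ∈ adj.getD x [] → (x, y) ∈ clo adj) ∧
    ∀ x y z, RP adj.length (clo adj) x y → RP adj.length (clo adj) y z →
      RP adj.length (clo adj) x z := by
  obtain ⟨h1, h2, h3⟩ := wfold (n := adj.length) Q hQ (List.range adj.length)
    ((pp (List.range adj.length)).filter fun p => mem (adj.getD p.1 []) p.2) (fun p hp => by
      rw [List.mem_filter, mem_pp, mem_iff] at hp
      exact ⟨hp.1.1, hp.1.2, h _ _ hp.1.1 hp.1.2 hp.2⟩)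
  refine ⟨h1, fun x y hx hy h => h2 _ ?_, fun x y z => h3 y (Or.inl (by simp)) x z⟩
  rw [List.mem_filter, mem_pp, mem_iff]
  exact ⟨⟨hx, hy⟩, h⟩

/-- the sets that occur in a list -/
def Occ (n : ℕ) (F : List LS) (X : Finset (Fin n)) : Prop := ∃ a ∈ F, dec n a = X

theorem occ_atoms (P : Rl) : Atoms (RP n P) (fun x => rank (List.range n) P x)
    (Occ n (atoms (List.range n) P)) := by
  refine ⟨⟨_, List.mem_cons_self, by ext; simp⟩, fun x => ⟨_, List.mem_cons_of_mem _
    (List.mem_flatMap.2 ⟨x, by simp, List.mem_cons_self⟩), by ext; simp [rel_iff, RP]⟩,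
    fun x => ⟨_, List.mem_cons_of_mem _ (List.mem_flatMap.2 ⟨x, by simp,
      List.mem_cons_of_mem _ List.mem_cons_self⟩), by ext; simp [rel_iff, RP, flip]⟩,
    fun x => ⟨_, List.mem_cons_of_mem _ (List.mem_flatMap.2 ⟨x, by simp,
      List.mem_cons_of_mem _ (List.mem_cons_of_mem _ List.mem_cons_self)⟩),
        by ext; simp [Fin.ext_iff]⟩,
    fun x => ⟨_, List.mem_cons_of_mem _ (List.mem_flatMap.2 ⟨x, by simp, List.mem_cons_of_mem _
      (List.mem_cons_of_mem _ (List.mem_cons_of_mem _ List.mem_cons_self))⟩), by ext; simp⟩⟩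

theorem occ_grow {A : List LS} {B : Finset (Fin n) → Prop} (hB : ∀ X, B X → Occ n A X) {r : ℕ}
    {X : Finset (Fin n)} (h : Ch B r X) : Occ n ((grow (List.range n) A)^[r] [[]]) X := by
  induction h with
  | nil => exact ⟨[], by simp, by ext; simp⟩
  | skip _ ih =>
    obtain ⟨s, hs, rfl⟩ := ih
    rw [Function.iterate_succ_apply']
    exact ⟨s, List.mem_flatMap.2 ⟨s, hs, List.mem_cons_self⟩, rfl⟩
  | un _ ha ih =>
    obtain ⟨s, hs, rfl⟩ := ih
    obtain ⟨a, ha', rfl⟩ := hB _ ha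
    rw [Function.iterate_succ_apply']
    exact ⟨_, List.mem_flatMap.2 ⟨s, hs, List.mem_cons_of_mem _
      (List.mem_flatMap.2 ⟨a, ha', List.mem_cons_self⟩)⟩, by ext; simp⟩
  | it _ ha ih =>
    obtain ⟨s, hs, rfl⟩ := ih
    obtain ⟨a, ha', rfl⟩ := hB _ ha
    rw [Function.iterate_succ_apply']
    exact ⟨_, List.mem_flatMap.2 ⟨s, hs, List.mem_cons_of_mem _ (List.mem_flatMap.2
      ⟨a, ha', List.mem_cons_of_mem _ List.mem_cons_self⟩)⟩, by ext; simp⟩
  | df _ ha ih =>
    obtain ⟨s, hs, rfl⟩ := ih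
    obtain ⟨a, ha', rfl⟩ := hB _ ha
    rw [Function.iterate_succ_apply']
    exact ⟨_, List.mem_flatMap.2 ⟨s, hs, List.mem_cons_of_mem _ (List.mem_flatMap.2
      ⟨a, ha', List.mem_cons_of_mem _ (List.mem_cons_of_mem _ List.mem_cons_self)⟩)⟩, by ext; simp⟩

theorem okb_iff {P : Rl} (hP : ∀ p ∈ P, p.1 < n ∧ p.2 < n) (m : ℕ) (X A B : LS) :
    okb (List.range n) P m X A B = true ↔ Ok (RP n P) m (dec n X) (dec n A) (dec n B) := by
  have e : dec n (rest (List.range n) X A B) = dec n X \ (dec n A ∪ dec n B) := by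
    ext; simp [rest]
  unfold okb Ok
  rw [← e, Bool.and_eq_true, leb_iff, List.all_eq_true]
  refine and_congr (by unfold rest; rw [card_dec]) ?_
  simp only [Bool.not_eq_true', Bool.and_eq_false_iff, Bool.or_eq_false_iff, mem_false, mem_dec,
    RP]
  constructor
  · intro h x y hr h1 h2
    have := h _ hr
    tauto
  · intro h p hp
    have := h ⟨p.1, (hP p hp).1⟩ ⟨p.2, (hP p hp).2⟩ hp
    tauto

theorem table_spec {P : Rl} (hP : ∀ p ∈ P, p.1 < n ∧ p.2 < n) (m : ℕ) (F : List LS) (k : ℕ) :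
    (∀ a ∈ (List.range k).foldl (round (List.range n) P m F) [([], 0)],
      a.2 ≤ k ∧ G (RP n P) m (Occ n F) (dec n a.1) a.2) ∧
    ∀ X t, G (RP n P) m (Occ n F) X t → t ≤ k →
      ∃ a, (a, t) ∈ (List.range k).foldl (round (List.range n) P m F) [([], 0)] ∧ dec n a = X := by
  induction k with
  | zero =>
    have e : dec n [] = ∅ := by ext; simp
    refine ⟨by simpa [e] using G.nil, fun X t h ht => ?_⟩
    cases h with
    | nil => exact ⟨[], by simp, e⟩
    | split => omega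
  | succ k ih =>
    rw [List.range_succ, List.foldl_append, List.foldl_cons, List.foldl_nil]
    generalize (List.range k).foldl (round (List.range n) P m F) [([], 0)] = tab at ih
    simp only [round, List.mem_append, List.mem_map, List.mem_filter, List.any_eq_true,
      Bool.and_eq_true, leb_iff, okb_iff hP]
    refine ⟨?_, fun X t h ht => ?_⟩
    · rintro a (ha | ⟨X, ⟨h1, b, hb, c, hc, h2, h3⟩, rfl⟩)
      · exact ⟨(ih.1 a ha).1.trans (by omega), (ih.1 a ha).2⟩
      · exact ⟨le_rfl, G.split (ih.1 b hb).2 (ih.1 c hc).2 ⟨X, h1, rfl⟩ h3 h2⟩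
    · rcases Nat.lt_or_eq_of_le ht with ht | rfl
      · obtain ⟨a, h1, h2⟩ := ih.2 X t h (by omega)
        exact ⟨a, Or.inl h1, h2⟩
      · cases h with
        | split h1 h2 h3 h4 h5 =>
          obtain ⟨a, ha, rfl⟩ := ih.2 _ _ h1 (by omega)
          obtain ⟨b, hb, rfl⟩ := ih.2 _ _ h2 (by omega)
          obtain ⟨c, hc, rfl⟩ := h3
          exact ⟨c, Or.inr ⟨c, ⟨hc, _, ha, _, hb, h5, h4⟩, rfl⟩, rfl⟩

theorem answer_iff {P : Rl} (hP : ∀ p ∈ P, p.1 < n ∧ p.2 < n) (m T : ℕ) (F : List LS) :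
    answer (List.range n) P m T F = true ↔ ∃ t ≤ T, t ≤ n ∧ G (RP n P) m (Occ n F) univ t := by
  obtain ⟨h1, h2⟩ := table_spec hP m F (min T n)
  simp only [answer, List.take_range, List.any_eq_true, List.all_eq_true, mem_iff, List.mem_range]
  constructor
  · rintro ⟨a, ha, h⟩
    obtain ⟨h3, h4⟩ := h1 a ha
    have e : dec n a.1 = univ := by ext x; simpa using h x x.2
    exact ⟨a.2, by omega, by omega, e ▸ h4⟩
  · rintro ⟨t, h3, h4, h5⟩
    obtain ⟨a, ha, e⟩ := h2 _ _ h5 (by omega)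
    exact ⟨_, ha, fun x hx => mem_dec.1 (e ▸ mem_univ (⟨x, hx⟩ : Fin n))⟩

theorem rank_inj (P : Rl) : Function.Injective fun x : Fin n => rank (List.range n) P x := by
  intro x y h
  have := congrArg (· % n) h
  simpa [rank, Nat.mod_eq_of_lt, Fin.ext_iff] using this

theorem rank_mono {P : Rl} (htr : ∀ x y z, RP n P x y → RP n P y z → RP n P x z)
    (hir : ∀ x, ¬ RP n P x x) (x y : Fin n) (h : RP n P x y) :
    rank (List.range n) P x ≤ rank (List.range n) P y := by
  simp only [rank, ← card_dec, List.length_range]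
  have h1 : dec n ((List.range n).filter fun z => rel P z x) ⊂
      dec n ((List.range n).filter fun z => rel P z y) := by
    refine ⟨fun z hz => ?_, fun hc => hir x ?_⟩
    · simp only [mem_dec, List.mem_filter, rel_iff] at hz ⊢
      exact ⟨hz.1, htr z x y hz.2 h⟩
    · have := @hc x (by simpa [rel_iff, RP] using h)
      simpa [rel_iff, RP] using this
  have h2 := Nat.mul_le_mul_right n (Nat.succ_le_of_lt (card_lt_card h1))
  have := x.2
  rw [Nat.succ_mul] at h2
  omega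

theorem alg_iff (m T : ℕ) (adj : List LS) :
    alg (List.replicate (2 ^ expo (m, T, adj)) (), m, T, adj) = true ↔
      ∃ τ : Fin adj.length → ℕ, (∀ v, 1 ≤ τ v ∧ τ v ≤ T) ∧
        (∀ s, (univ.filter fun v => τ v = s).card ≤ m) ∧
        ∀ u v : Fin adj.length, v.val ∈ adj.get u → τ u < τ v := by
  obtain ⟨c1, c2, htr⟩ := clo_spec adj (fun _ _ => True) (by simp) (by simp)
  have eg : ∀ u : Fin adj.length, adj.getD u [] = adj.get u := fun u => by simp
  unfold alg
  simp only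
  rw [family_eq]
  simp only [rg]
  rw [answer_iff fun p hp => ⟨(c1 p hp).1, (c1 p hp).2.1⟩]
  constructor
  · rintro ⟨t, h1, -, h2⟩
    obtain ⟨τ, k1, k2, k3⟩ := h2.sound
    refine ⟨fun v => τ v + 1, fun v => ?_, fun s => ?_, fun u v h => ?_⟩
    · have := k1 v (mem_univ _)
      simp only
      omega
    · refine (card_le_card fun v hv => ?_).trans (k2 (s - 1))
      simp only [mem_filter, mem_univ, true_and] at hv ⊢
      omega
    · exact Nat.succ_lt_succ (k3 u (mem_univ _) v (mem_univ _) (c2 u v u.2 v.2 (eg u ▸ h)))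
  · rintro ⟨τ, k1, k2, k3⟩
    obtain ⟨c3, -⟩ := clo_spec adj (fun x y => ∃ hx hy, τ ⟨x, hx⟩ < τ ⟨y, hy⟩)
      (fun x y z ⟨h1, _, h2⟩ ⟨_, h3, h4⟩ => ⟨h1, h3, h2.trans h4⟩)
      (fun x y hx hy h => ⟨hx, hy, k3 ⟨x, hx⟩ ⟨y, hy⟩ (eg ⟨x, hx⟩ ▸ h)⟩)
    have c4 : ∀ x y, RP adj.length (clo adj) x y → τ x < τ y := fun x y h => by
      obtain ⟨-, -, _, _, h⟩ := c3 _ h
      exact h
    have hs : Sched (RP adj.length (clo adj)) m univ T := by
      refine ⟨fun v => τ v - 1, fun v _ => ?_, fun s => ?_, fun u _ v _ h => ?_⟩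
      · have := k1 v
        simp only
        omega
      · refine (card_le_card fun v hv => ?_).trans (k2 (s + 1))
        have := k1 v
        simp only [mem_filter, mem_univ, true_and] at hv ⊢
        omega
      · have := c4 u v h
        have := k1 u
        simp only
        omega
    obtain ⟨t, h1, h2, h3⟩ := complete (K := kk adj) htr (occ_atoms (clo adj)) (rank_inj _)
      (rank_mono htr fun x h => lt_irrefl _ (c4 x x h)) (by
        rw [Fintype.card_fin]
        exact ((Nat.lt_size_self _).trans_le (Nat.pow_le_pow_right (by omega) (by simp [kk]))).le)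
      (by simp [kk]) hs
    exact ⟨t, h1, by simpa using h2,
      h3.imp fun X => occ_grow fun X => occ_grow fun X => occ_grow fun X h => h⟩

end Vale.Agent.P324
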