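import Vale.Agent.P324.Correct
import Vale.Agent.P324.Code

/-! The Turing machine. -/

namespace Vale.Agent.P324

open Vale.Agent.Lib.H23 Vale.Agent.P333 Enc Turing Finset

theorem ser_list' {α : Type} [Enc α] {f : α → List Bool} (h : ∀ a, ser (enc a) = f a)
    (l : List α) : ser (enc l) = bList f l := by
  induction l with
  | nil => rfl
  | cons a l ih => rw [enc_cons, ser, h, ih, bList]

theorem ser_bool' (b : Bool) : ser (enc b) = bBool b := by cases b <;> rfl

theorem ser_nat' (n : ℕ) : ser (enc n) = bNat n := ser_list' ser_bool' n.bits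

theorem ser_code (m T : ℕ) (adj : List (List ℕ)) : ser (enc (m, T, adj)) = code m T adj := by
  rw [enc_pair, enc_pair, ser, ser, ser_nat', ser_nat', ser_list' (ser_list' ser_nat')]
  rfl

theorem time_le (k L m n : ℕ) {e : ℕ} (he : e ≤ 600 * ((m + 1) * (n.size + 1) ^ 3)) :
    (L + 2 ^ e + 2) ^ k + 1 ≤
      (L + 2) ^ (4801 * (k + 1)) * 2 ^ (4801 * (k + 1) * ((m + 1) * (Nat.log 2 n + 1) ^ 3)) := by
  have h1 : n.size ≤ Nat.log 2 n + 1 := Nat.size_le.2 (Nat.lt_pow_succ_log_self (by omega) n)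
  have h2 : (n.size + 1) ^ 3 ≤ (2 * (Nat.log 2 n + 1)) ^ 3 := Nat.pow_le_pow_left (by omega) 3
  have h3 : 0 < (m + 1) * (Nat.log 2 n + 1) ^ 3 := by positivity
  have h4 := Nat.mul_le_mul_left (m + 1) h2
  rw [mul_pow, mul_left_comm] at h4
  generalize (m + 1) * (Nat.log 2 n + 1) ^ 3 = Q at *
  have h5 : e + 1 ≤ 4801 * Q := by omega
  have h6 : L + 2 ^ e + 2 ≤ (L + 2) * 2 ^ (4801 * Q) := by
    have a1 : 0 < 2 ^ e := by positivity
    have a2 : 2 ^ (e + 1) ≤ 2 ^ (4801 * Q) := Nat.pow_le_pow_right (by omega) h5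
    rw [pow_succ] at a2
    nlinarith
  have h7 := Nat.pow_le_pow_left h6 k
  have h8 : 0 < ((L + 2) * 2 ^ (4801 * Q)) ^ k := by positivity
  have h9 : 2 ≤ (L + 2) * 2 ^ (4801 * Q) :=
    le_trans (Nat.le_add_left 2 _) h6
  calc _ ≤ ((L + 2) * 2 ^ (4801 * Q)) ^ (k + 1) := by rw [pow_succ]; nlinarith
    _ = (L + 2) ^ (k + 1) * 2 ^ (4801 * (k + 1) * Q) := by
      rw [mul_pow, ← pow_mul]; congr 2; ring
    _ ≤ _ := Nat.mul_le_mul_right _ (Nat.pow_le_pow_right (by omega) (by omega))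

theorem qpoly : ∃ (M : TM2ComputableAux Bool Bool) (C : ℕ), (∀ k, Finite (M.tm.Γ k)) ∧
    ∀ (m T : ℕ) (adj : List (List ℕ)), ∃ (b : Bool) (t : ℕ),
      (b = true ↔ ∃ τ : Fin adj.length → ℕ, (∀ v, 1 ≤ τ v ∧ τ v ≤ T) ∧
        (∀ s, (Finset.univ.filter fun v => τ v = s).card ≤ m) ∧
        ∀ u v : Fin adj.length, v.val ∈ adj.get u → τ u < τ v) ∧
      t ≤ ((code m T adj).length + 2) ^ C *
        2 ^ (C * ((m + 1) * (Nat.log 2 adj.length + 1) ^ 3)) ∧
      Nonempty (TM2OutputsInTime M.tm ((code m T adj).map M.inputAlphabet.invFun)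
        (some ((bBool b).map M.outputAlphabet.invFun)) t) := by
  obtain ⟨c, k, h⟩ := pad_runs pt_expo pt_alg
  refine ⟨⟨compile c, Equiv.refl _, Equiv.refl _⟩, 4801 * (k + 1),
    fun _ => (inferInstance : Finite Bool), fun m T adj => ?_⟩
  have h1 := (h (m, T, adj)).outputs
  rw [sz, Tr.size, ser_code, ser_bool'] at h1
  refine ⟨_, _, alg_iff m T adj, time_le k (code m T adj).length m adj.length
    (e := expo (m, T, adj)) (le_of_eq (by simp only [expo, kk]; ring)), ?_⟩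
  rw [← List.map_id (code m T adj), ← List.map_id (bBool _), List.length_map] at h1
  exact h1

end Vale.Agent.P324
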