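import Vale.Agent.P324.Split

/-! Short names for the subproblems of the recursion. -/

namespace Vale.Agent.P324

open Finset

variable {V : Type} [DecidableEq V] [Fintype V] {R : V → V → Prop} {m K : ℕ}
  {A : Finset V → Prop}

open Classical in
/-- successors of a set -/
noncomputable def sc (R : V → V → Prop) (Y : Finset V) : Finset V :=
  univ.filter fun y => ∃ x ∈ Y, R x y

omit [DecidableEq V] in
@[simp] theorem mem_sc {Y : Finset V} {y : V} : y ∈ sc R Y ↔ ∃ x ∈ Y, R x y := by simp [sc]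

/-- sets built from the empty set by a chain of `r` operations with members of `A` -/
inductive Ch (A : Finset V → Prop) : ℕ → Finset V → Prop
  | nil : Ch A 0 ∅
  | skip {r s} : Ch A r s → Ch A (r + 1) s
  | un {r s a} : Ch A r s → A a → Ch A (r + 1) (s ∪ a)
  | it {r s a} : Ch A r s → A a → Ch A (r + 1) (s ∩ a)
  | df {r s a} : Ch A r s → A a → Ch A (r + 1) (s \ a)

omit [Fintype V] in
theorem Ch.mono {r r' : ℕ} {s : Finset V} (h : Ch A r s) (hr : r ≤ r') : Ch A r' s := by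
  induction hr with
  | refl => exact h
  | step _ ih => exact ih.skip

omit [Fintype V] in
theorem Ch.congr {r : ℕ} {s s' : Finset V} (h : Ch A r s) (e : ∀ x, x ∈ s' ↔ x ∈ s) :
    Ch A r s' := by rwa [Finset.ext e]

omit [Fintype V] in
theorem Ch.one {a : Finset V} (h : A a) : Ch A 1 a := (Ch.nil.un h).congr (by simp)

theorem Ch.un_sc (hA : ∀ x, A (sc R {x})) {r : ℕ} {s : Finset V} (h : Ch A r s) (Y : Finset V) :
    Ch A (r + Y.card) (s ∪ sc R Y) := by
  induction Y using Finset.induction_on with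
  | empty => exact h.congr (by simp)
  | insert a Y ha ih =>
    rw [card_insert_of_notMem ha]
    exact (ih.un (hA a)).congr fun x => by simp [or_comm, or_left_comm]

theorem Ch.df_sc (hA : ∀ x, A (sc R {x})) {r : ℕ} {s : Finset V} (h : Ch A r s) (Y : Finset V) :
    Ch A (r + Y.card) (s \ sc R Y) := by
  induction Y using Finset.induction_on with
  | empty => exact h.congr (by simp)
  | insert a Y ha ih =>
    rw [card_insert_of_notMem ha]
    exact (ih.df (hA a)).congr fun x => by simp; tauto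

omit [Fintype V] in
theorem Ch.un_set (hA : ∀ x, A {x}) {r : ℕ} {s : Finset V} (h : Ch A r s) (Y : Finset V) :
    Ch A (r + Y.card) (s ∪ Y) := by
  induction Y using Finset.induction_on with
  | empty => exact h.congr (by simp)
  | insert a Y ha ih =>
    rw [card_insert_of_notMem ha]
    exact (ih.un (hA a)).congr fun x => by simp

def Up (R : V → V → Prop) (L : Finset V) : Prop := ∀ x y, R x y → x ∈ L → y ∈ L

/-- one boundary `L` of the subproblem `X`, with pins `Y` and budget `k` -/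
def Side (R : V → V → Prop) (m K : ℕ) (A : Finset V → Prop) (X L Y : Finset V) (k : ℕ) : Prop :=
  ∃ L0 : Finset V, k ≤ K ∧ Up R L ∧ Up R L0 ∧ L0 ⊆ L ∧ X ∩ sc R Y ⊆ L0 ∧ Y.card ≤ m * (K - k) ∧
    (X \ sc R Y).card ≤ 2 ^ k ∧ Ch A (3 * (K - k)) L0 ∧ Ch A (3 * K + 1 + 3 * (K - k)) L

theorem Side.sub {X L Y B : Finset V} {k : ℕ} (h : Side R m K A X L Y k) (hB : B ⊆ X) :
    Side R m K A B L Y k := by
  obtain ⟨L0, h1, h2, h3, h4, h5, h6, h7, h8⟩ := h
  exact ⟨L0, h1, h2, h3, h4, (inter_subset_inter_right hB).trans h5, h6,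
    (card_le_card (sdiff_subset_sdiff hB Subset.rfl)).trans h7, h8⟩

theorem Side.fresh {X L : Finset V} (hK : Fintype.card V ≤ 2 ^ K) (h : Up R L)
    (h' : Ch A (3 * K + 1) L) : Side R m K A X L ∅ K :=
  ⟨∅, le_rfl, h, fun _ _ _ h => by simp at h, by simp, fun x => by simp, by simp,
    (card_le_univ _).trans hK, by simpa using Ch.nil, by simpa using h'⟩

theorem Side.reset (htr : ∀ x y z, R x y → R y z → R x z) (hK : Fintype.card V ≤ 2 ^ K)
    (hK1 : 1 ≤ K) (hA : ∀ j, A (sc R {j} ∪ {j})) {X L Y M : Finset V} {k : ℕ}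
    (h : Side R m K A X L Y k) (e : X = L ∩ M) :
    ∃ L' Y' k', X = L' ∩ M ∧ Side R m K A X L' Y' (k' + 1) := by
  rcases k with _ | k
  swap
  · exact ⟨L, Y, k, e, h⟩
  obtain ⟨L0, -, h2, h3, h4, h5, -, h7, h8, -⟩ := h
  obtain ⟨K, rfl⟩ : ∃ K', K = K' + 1 := ⟨K - 1, by omega⟩
  have hX : ∀ x ∈ X, x ∈ L ∧ x ∈ M := fun x hx => by simpa [e] using hx
  have h0 : ∀ x ∈ X, x ∉ X \ sc R Y → x ∈ L0 := fun x hx h =>
    h5 (mem_inter.2 ⟨hx, by_contra fun hc => h (mem_sdiff.2 ⟨hx, hc⟩)⟩)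
  rcases (X \ sc R Y).eq_empty_or_nonempty with he | ⟨j, hj⟩
  · refine ⟨L0, ∅, K, ?_, Side.fresh hK h3 (h8.mono (by omega))⟩
    ext x
    rw [mem_inter]
    exact ⟨fun hx => ⟨h0 x hx (by simp [he]), (hX x hx).2⟩,
      fun hx => e ▸ mem_inter.2 ⟨h4 hx.1, hx.2⟩⟩
  · have hjL := (hX j (mem_sdiff.1 hj).1).1
    refine ⟨L0 ∪ (sc R {j} ∪ {j}), ∅, K, ?_, Side.fresh hK (fun x y hr hx => ?_)
      ((h8.un (hA j)).mono (by omega))⟩
    · ext x
      rw [mem_inter]
      refine ⟨fun hx => ⟨?_, (hX x hx).2⟩, fun hx => e ▸ mem_inter.2 ⟨?_, hx.2⟩⟩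
      · by_cases hc : x ∈ X \ sc R Y
        · simp [card_le_one.1 h7 x hc j hj]
        · simp [h0 x hx hc]
      · have := hx.1
        simp only [mem_union, mem_sc, mem_singleton, exists_eq_left] at this
        rcases this with h | h | rfl
        exacts [h4 h, h2 _ _ h hjL, hjL]
    · simp only [mem_union, mem_sc, mem_singleton, exists_eq_left] at hx ⊢
      rcases hx with h | h | rfl
      exacts [Or.inl (h3 _ _ hr h), Or.inr (Or.inl (htr _ _ _ h hr)), Or.inr (Or.inl hr)]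

theorem Side.step (htr : ∀ x y z, R x y → R y z → R x z) {X L Y M S B w : Finset V} {k : ℕ}
    (h : Side R m K A X L Y (k + 1)) (e : X = L ∩ M) (hS : S ⊆ X) (hm : S.card ≤ m)
    (hw : Up R w) (hw' : ∀ r s, Ch A r s → Ch A (r + 1) (s ∩ w)) (a1 : A (sc R S))
    (a2 : A (sc (flip R) S ∪ S))
    (hB : ∀ x, x ∈ B ↔ x ∈ X ∧ (x ∈ sc R S ∨ (x ∈ w ∧ x ∉ sc (flip R) S ∪ S)))
    (hc : ((X ∩ w) \ sc R Y).card ≤ 2 ^ k) :
    ∃ L', B = L' ∩ M ∧ Side R m K A B L' (Y ∪ S) k := by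
  obtain ⟨L0, h1, h2, h3, h4, h5, h6, -, h8, h9⟩ := h
  let φ : Finset V → Finset V := fun Z => ((Z ∩ w) \ (sc (flip R) S ∪ S)) ∪ sc R S
  have mφ : ∀ Z x, x ∈ φ Z ↔ (x ∈ Z ∧ x ∈ w ∧ x ∉ sc (flip R) S ∪ S) ∨ x ∈ sc R S := by
    intro Z x
    simp only [φ, mem_union, mem_sdiff, mem_inter, and_assoc]
  have uφ : ∀ Z, Up R Z → Up R (φ Z) := by
    intro Z hZ x y hr hx
    rw [mφ] at hx ⊢
    rcases hx with ⟨b1, b2, b3⟩ | hx
    · refine Or.inl ⟨hZ _ _ hr b1, hw _ _ hr b2, fun hy => b3 ?_⟩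
      simp only [mem_union, mem_sc, flip] at hy ⊢
      rcases hy with ⟨s, hs, h⟩ | hy
      exacts [Or.inl ⟨s, hs, htr _ _ _ hr h⟩, Or.inl ⟨y, hy, hr⟩]
    · obtain ⟨s, hs, h⟩ := mem_sc.1 hx
      exact Or.inr (mem_sc.2 ⟨s, hs, htr _ _ _ h hr⟩)
  have cφ : ∀ r Z, Ch A r Z → Ch A (r + 3) (φ Z) := fun r Z h => ((hw' r Z h).df a2).un a1
  have hsL : ∀ x ∈ sc R S, x ∈ L := fun x hx => by
    obtain ⟨s, hs, h⟩ := mem_sc.1 hx
    exact h2 _ _ h (mem_inter.1 (e ▸ hS hs)).1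
  refine ⟨φ L, ?_, φ L0, by omega, uφ L h2, uφ L0 h3, fun x hx => ?_, fun x hx => ?_, ?_, ?_,
    (cφ _ _ h8).mono (by omega), (cφ _ _ h9).mono (by omega)⟩
  · ext x
    have := hsL x
    rw [hB, mem_inter, mφ, e, mem_inter]
    tauto
  · have := @h4 x
    rw [mφ] at hx ⊢
    tauto
  · rw [mem_inter, hB] at hx
    rw [mφ]
    by_cases b : x ∈ sc R S
    · exact Or.inr b
    · refine Or.inl ⟨h5 (mem_inter.2 ⟨hx.1.1, ?_⟩), hx.1.2.resolve_left b⟩
      obtain ⟨s, hs, h⟩ := mem_sc.1 hx.2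
      rcases mem_union.1 hs with hs | hs
      exacts [mem_sc.2 ⟨s, hs, h⟩, (b (mem_sc.2 ⟨s, hs, h⟩)).elim]
  · have := card_union_le Y S
    rw [show K - k = K - (k + 1) + 1 by omega, mul_add]
    omega
  · refine (card_le_card fun x hx => ?_).trans hc
    rw [mem_sdiff, hB] at hx
    have b : x ∉ sc R S := fun b => by
      obtain ⟨s, hs, h⟩ := mem_sc.1 b
      exact hx.2 (mem_sc.2 ⟨s, mem_union_right _ hs, h⟩)
    refine mem_sdiff.2 ⟨mem_inter.2 ⟨hx.1.1, (hx.1.2.resolve_left b).1⟩, fun b => ?_⟩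
    obtain ⟨s, hs, h⟩ := mem_sc.1 b
    exact hx.2 (mem_sc.2 ⟨s, mem_union_left _ hs, h⟩)

omit [Fintype V] in
theorem exists_threshold {rk : V → ℕ} (hi : Function.Injective rk) (Z : Finset V) :
    ∀ j, 1 ≤ j → j ≤ Z.card → ∃ x ∈ Z, (Z.filter fun y => rk y ≤ rk x).card = j := by
  induction Z using Finset.induction_on_max_value rk with
  | empty => intro j h1 h2; simp at h2; omega
  | insert a Z ha hmax ih =>
    intro j h1 h2
    rw [card_insert_of_notMem ha] at h2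
    rcases Nat.lt_or_eq_of_le h2 with h | h
    · obtain ⟨x, hx, e⟩ := ih j h1 (by omega)
      refine ⟨x, mem_insert_of_mem hx, ?_⟩
      have : ¬ rk a ≤ rk x := fun hc => ha (hi (le_antisymm hc (hmax x hx)) ▸ hx)
      rw [filter_insert, if_neg this, e]
    · refine ⟨a, mem_insert_self _ _, ?_⟩
      rw [filter_true_of_mem, card_insert_of_notMem ha, h]
      intro x hx
      rcases mem_insert.1 hx with rfl | hx
      exacts [le_rfl, hmax x hx]

end Vale.Agent.P324
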