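import Vale.Agent.P324.Rigid
import Vale.Agent.P324.Rec

/-! Subproblems with a rigid right boundary. -/

namespace Vale.Agent.P324

open Finset

variable {V : Type} [DecidableEq V] {R Q : V → V → Prop} {m : ℕ} {A F : Finset V → Prop}

inductive H (R : V → V → Prop) (m : ℕ) (F : Finset V → Prop) : Finset V → ℕ → Prop
  | nil : H R m F ∅ 0
  | split {X A B a b t} : H R m F A a → H R m F B b → F X → Ok R m X A B → a ≤ t → b ≤ t →
      (a + b ≤ t ∨ (X ⊆ A ∪ B ∧ a + b ≤ t + 1)) → H R m F X (t + 1)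

theorem H.sound {X : Finset V} {t : ℕ} (h : H R m F X t) : Sched R m X t := by
  induction h with
  | nil => exact sched_empty
  | @split X A B a b t _ _ _ hok _ _ hab ihA ihB =>
    rcases hab with hab | ⟨h1, hab⟩
    · have h1 := sched_one (R := R) hok.1 fun x hx y hy hr => hok.2 x y hr (Or.inl hx) (Or.inr hy)
      have h2 := (ihA.concat h1 fun x hx y hy hr => hok.2 x y hr (Or.inl hx) (Or.inl hy)).concat
        ihB fun x hx y hy hr => hok.2 x y hr (Or.inr hx) (mem_union.1 hy)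
      refine h2.mono (fun x hx => ?_) (by omega)
      simp only [mem_union, mem_sdiff]
      tauto
    · exact (ihA.concat ihB fun x hx y hy hr => hok.2 x y hr (Or.inr hx) (Or.inl hy)).mono h1 hab

theorem H.imp {F' : Finset V → Prop} (hF : ∀ X, F X → F' X) {X : Finset V} {t : ℕ}
    (h : H R m F X t) : H R m F' X t := by
  induction h with
  | nil => exact H.nil
  | split _ _ h1 h2 h3 h4 h5 ihA ihB => exact H.split ihA ihB (hF _ h1) h2 h3 h4 h5

theorem H.flip {X : Finset V} {t : ℕ} (h : H (flip R) m F X t) : H R m F X t := by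
  induction h with
  | nil => exact H.nil
  | @split X A B a b t _ _ h1 h2 h3 h4 h5 ihA ihB =>
    refine H.split ihB ihA h1 ⟨by rw [union_comm]; exact h2.1, fun x y hr hx hy => ?_⟩ h4 h3 ?_
    · rw [union_comm] at hx hy
      exact h2.2 y x hr hy.symm hx.symm
    · rw [union_comm, add_comm]
      exact h5

theorem H.join {X A B : Finset V} {a b : ℕ} (hA : H R m F A a) (hB : H R m F B b) (hX : F X)
    (e : X = A ∪ B) (hd : Disjoint A B) (h : ∀ x ∈ B, ∀ y ∈ A, ¬ R x y) (ha : a ≤ A.card)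
    (hb : b ≤ B.card) : ∃ t ≤ a + b, t ≤ X.card ∧ H R m F X t := by
  have hc := card_union_of_disjoint hd
  rcases a with _ | a
  · obtain rfl := hA.sound.eq_empty
    exact ⟨b, by omega, by rw [e]; omega, by simpa [e] using hB⟩
  rcases b with _ | b
  · obtain rfl := hB.sound.eq_empty
    exact ⟨a + 1, by omega, by rw [e]; omega, by simpa [e] using hA⟩
  refine ⟨a + b + 1 + 1, by omega, by rw [e]; omega, H.split hA hB hX ⟨by simp [e], ?_⟩
    (by omega) (by omega) (Or.inr ⟨e.le, by omega⟩)⟩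
  intro x y hr hx hy
  simp only [e, sdiff_self, bot_eq_empty, notMem_empty, false_or, or_false] at hx hy
  exact h x hx y hy hr

omit [DecidableEq V] in
theorem Sched.flip {X : Finset V} {T : ℕ} (h : Sched R m X T) : Sched (flip R) m X T := by
  obtain ⟨τ, h1, h2, h3⟩ := h
  refine ⟨fun x => T - 1 - τ x, fun x hx => ?_, fun s => ?_, fun x hx y hy hr => ?_⟩
  · have := h1 x hx
    simp only
    omega
  · refine (card_le_card fun x hx => ?_).trans (h2 (T - 1 - s))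
    simp only [mem_filter] at hx ⊢
    have := h1 x hx.1
    exact ⟨hx.1, by omega⟩
  · have := h3 y hy x hx hr
    have := h1 x hx
    simp only
    omega

theorem Ch.df_set (hA : ∀ x, A {x}) {r : ℕ} {s : Finset V} (h : Ch A r s) (Y : Finset V) :
    Ch A (r + Y.card) (s \ Y) := by
  induction Y using Finset.induction_on with
  | empty => exact h.congr (by simp)
  | insert a Y ha ih =>
    rw [card_insert_of_notMem ha]
    exact (ih.df (hA a)).congr fun x => by simp; tauto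

/-- `X` has slots `0, …, T`; the jobs outside `U` are pinned by `P`, which stays in the last slot,
and in every such schedule the last slot blocks all later jobs of `U` -/
structure Node (R : V → V → Prop) (m : ℕ) (X P U L : Finset V) (T : ℕ) : Prop where
  sub : P ⊆ X
  ex : ∃ τ, Pin R m X P T τ
  dis : ∀ p ∈ P, p ∉ U
  low : ∀ x ∈ X, x ∉ U → x ∈ P ∨ ∃ p ∈ P, R x p
  inL : X ⊆ L
  up : Up R L
  cvx : ∀ x ∈ L, ∀ p ∈ X, R x p → x ∈ X
  rig : ∀ σ, Pin R m X P T σ → ∀ y ∈ L, y ∈ U → y ∉ X → ∃ p ∈ X, σ p = T ∧ R p y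

variable {X P U L : Finset V} {T : ℕ}

omit [DecidableEq V] in
theorem Node.card_le (h : Node R m X P U L T) : P.card ≤ m := by
  obtain ⟨τ, h1, h2⟩ := h.ex
  exact (card_le_card fun p hp => mem_filter.2 ⟨h.sub hp, h2 p hp⟩).trans (h1.2.1 T)

omit [DecidableEq V] in
theorem Node.max (h : Node R m X P U L T) {p x : V} (hp : p ∈ P) (hx : x ∈ X) : ¬ R p x := by
  obtain ⟨τ, h1, h2⟩ := h.ex
  intro hr
  have := h1.2.2 p (h.sub hp) x hx hr
  have := h1.1 x hx
  have := h2 p hp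
  omega

theorem Node.suf (h : Node R m X P U L T) {τ : V → ℕ} (hτ : Pin R m X P T τ) {b c : ℕ}
    (e : T = b + 1 + c) {L' : Finset V} (h1 : L' ⊆ L) (h2 : Up R L')
    (h3 : ∀ x ∈ X, x ∈ L' ↔ b < τ x) : Node R m (X.filter fun x => b < τ x) P U L' c := by
  have hP : ∀ p ∈ P, p ∈ X.filter fun x => b < τ x := fun p hp =>
    mem_filter.2 ⟨h.sub hp, by have := hτ.2 p hp; omega⟩
  refine ⟨hP, ⟨fun x => τ x - (b + 1), ?_, fun p hp => ?_⟩, h.dis,
    fun x hx => h.low x (mem_filter.1 hx).1, fun x hx => ?_, h2, fun x hx p hp hr => ?_,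
    fun σ hσ y hy hyU hyX => ?_⟩
  · have := hτ.1.suf b
    rwa [show T - b = c + 1 by omega] at this
  · have := hτ.2 p hp
    simp only
    omega
  · rw [mem_filter] at hx
    exact (h3 x hx.1).2 hx.2
  · have := h.cvx x (h1 hx) p (mem_filter.1 hp).1 hr
    exact mem_filter.2 ⟨this, (h3 x this).1 hx⟩
  · have k1 := hτ.1.mix (hτ.1.pre b) hσ.1
    rw [show b + 1 + (c + 1) = T + 1 by omega] at k1
    have k2 : ∀ x, b < τ x → x ∉ X.filter fun x => τ x ≤ b := fun x h a => by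
      have := (mem_filter.1 a).2
      omega
    obtain ⟨p, hp, a1, a2⟩ := h.rig _ ⟨k1, fun p hp => by
      simp only [if_neg (k2 p (mem_filter.1 (hP p hp)).2), hσ.2 p hp, e]⟩ y (h1 hy) hyU
      fun a => hyX (mem_filter.2 ⟨a, (h3 y a).1 hy⟩)
    have a3 : b < τ p := by
      by_contra a
      have a' : p ∈ X.filter fun x => τ x ≤ b := mem_filter.2 ⟨hp, not_lt.1 a⟩
      rw [if_pos a'] at a1
      omega
    rw [if_neg (k2 p a3)] at a1
    exact ⟨p, mem_filter.2 ⟨hp, a3⟩, by omega, a2⟩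

theorem Node.pre (htr : ∀ x y z, R x y → R y z → R x z) (h : Node R m X P U L T) {U' : Finset V}
    (hU : U' ⊆ U) (hd : Up (flip R) U') {τ : V → ℕ} {b : ℕ} (hb : b ≤ T) (hτ : Pin R m X P T τ)
    (h1 : ∀ x ∈ X, x ∉ U' → τ x < b → ∃ p ∈ X, τ p = b ∧ R x p)
    (h2 : ∀ σ, Pin R m (X.filter fun x => τ x ≤ b) (X.filter fun x => τ x = b ∧ x ∉ U') b σ →
      ∀ u ∈ X, u ∈ U' → b < τ u → ∃ p ∈ X, τ p ≤ b ∧ σ p = b ∧ R p u) :
    Node R m (X.filter fun x => τ x ≤ b) (X.filter fun x => τ x = b ∧ x ∉ U') U' L b := by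
  refine ⟨fun x hx => ?_, ⟨τ, hτ.1.pre b, fun p hp => (mem_filter.1 hp).2.1⟩,
    fun p hp => (mem_filter.1 hp).2.2, fun x hx hxU => ?_,
    fun x hx => h.inL (mem_filter.1 hx).1, h.up, fun x hx p hp hr => ?_,
    fun σ hσ y hy hyU hyX => ?_⟩
  · rw [mem_filter] at hx ⊢
    exact ⟨hx.1, hx.2.1.le⟩
  · rw [mem_filter] at hx
    rcases Nat.lt_or_eq_of_le hx.2 with a | a
    · obtain ⟨p, hp, a1, a2⟩ := h1 x hx.1 hxU a
      exact Or.inr ⟨p, mem_filter.2 ⟨hp, a1, fun a3 => hxU (hd _ _ a2 a3)⟩, a2⟩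
    · exact Or.inl (mem_filter.2 ⟨hx.1, a, hxU⟩)
  · rw [mem_filter] at hp
    have a := h.cvx x hx p hp.1 hr
    have := hτ.1.2.2 x a p hp.1 hr
    exact mem_filter.2 ⟨a, by omega⟩
  · by_cases a : y ∈ X
    · obtain ⟨p, hp, a1, a2⟩ := h2 σ hσ y a hyU (not_le.1 fun c => hyX (mem_filter.2 ⟨a, c⟩))
      exact ⟨p, mem_filter.2 ⟨hp, a1⟩, a2⟩
    have k1 := hτ.1.mix hσ.1 (hτ.1.suf b)
    rw [show b + 1 + (T - b) = T + 1 by omega] at k1
    obtain ⟨p, hp, a1, a2⟩ := h.rig _ ⟨k1, fun p hp => by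
      have c := hτ.2 p hp
      by_cases c1 : p ∈ X.filter fun x => τ x ≤ b
      · have c2 := (mem_filter.1 c1).2
        have := hσ.2 p (mem_filter.2 ⟨h.sub hp, by omega, fun c3 => h.dis p hp (hU c3)⟩)
        simp only [if_pos c1]
        omega
      · have : ¬ τ p ≤ b := fun c2 => c1 (mem_filter.2 ⟨h.sub hp, c2⟩)
        simp only [if_neg c1]
        omega⟩ y hy (hU hyU) a
    by_cases c1 : p ∈ X.filter fun x => τ x ≤ b
    · rw [if_pos c1] at a1
      have := hσ.1.1 p c1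
      exact ⟨p, c1, by omega, a2⟩
    · obtain ⟨q, hq, c2, c3, c4⟩ := h2 σ hσ p hp (hd _ _ a2 hyU)
        (not_le.1 fun c2 => c1 (mem_filter.2 ⟨hp, c2⟩))
      exact ⟨q, mem_filter.2 ⟨hq, c2⟩, c3, htr _ _ _ c4 a2⟩

variable [Fintype V]

/-- the order, a linear extension of it, and the basic sets -/
structure Setup (R Q : V → V → Prop) (A : Finset V → Prop) : Prop where
  tr : ∀ x y z, R x y → R y z → R x z
  trQ : ∀ x y z, Q x y → Q y z → Q x z
  sub : ∀ x y, R x y → Q x y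
  irr : ∀ x, ¬ Q x x
  top : ∀ Z : Finset V, Z.Nonempty → ∃ j ∈ Z, ∀ x ∈ Z, x ≠ j → Q x j
  bot : ∀ Z : Finset V, Z.Nonempty → ∃ j ∈ Z, ∀ x ∈ Z, x ≠ j → Q j x
  all : A univ
  su : ∀ x, A (sc R {x})
  pr : ∀ x, A (sc (flip R) {x})
  si : ∀ x, A {x}
  ab : ∀ x, A (sc Q {x})
  be : ∀ x, A (sc (flip Q) {x})

omit [DecidableEq V] in
theorem Setup.flip (h : Setup R Q A) : Setup (flip R) (flip Q) A :=
  ⟨fun _ _ _ a b => h.tr _ _ _ b a, fun _ _ _ a b => h.trQ _ _ _ b a, fun _ _ a => h.sub _ _ a,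
    h.irr, h.bot, h.top, h.all, h.pr, h.su, h.si, h.be, h.ab⟩

theorem Node.name (c : Setup R Q A) (h : Node R m X P U L T) {r : ℕ} (hU : Ch A r U)
    (hL : Ch A (r + 3 * m) L) : Ch (Ch A (r + 3 * m)) 2 X := by
  obtain ⟨τ, hτ⟩ := h.ex
  have h1 := hτ.1.2.1 T
  have h2 := h.card_le
  refine ((Ch.one hL).it ((((hU.df_sc c.su (X.filter fun x => τ x = T)).un_sc c.pr P).un_set
    c.si P).mono (by omega))).congr fun x => ?_
  simp only [mem_inter, mem_union, mem_sdiff, mem_sc, mem_filter, flip]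
  constructor
  · intro hx
    refine ⟨h.inL hx, ?_⟩
    by_cases a : x ∈ U
    · refine Or.inl (Or.inl ⟨a, fun ⟨p, hp, hr⟩ => ?_⟩)
      have := hτ.1.2.2 p hp.1 x hx hr
      have := hτ.1.1 x hx
      omega
    · exact (h.low x hx a).elim Or.inr fun a => Or.inl (Or.inr a)
  · rintro ⟨a, (⟨a1, a2⟩ | ⟨p, a1, a2⟩) | a1⟩
    · by_contra a3
      obtain ⟨p, a4, a5, a6⟩ := h.rig τ hτ x a a1 a3
      exact a2 ⟨p, ⟨a4, a5⟩, a6⟩
    · exact h.cvx x a p (h.sub a1) a2
    · exact h.sub a1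

end Vale.Agent.P324
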