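import Vale.Agent.P324.Node

/-! Every subproblem of the recursion has a name of bounded length. -/

namespace Vale.Agent.P324

open Finset

variable {V : Type} [DecidableEq V] [Fintype V] {m : ℕ} {A : Finset V → Prop}

/-- the statement proved by induction on the number of slots -/
def Claim (m : ℕ) (A : Finset V → Prop) (T : ℕ) : Prop :=
  ∀ (R Q : V → V → Prop), Setup R Q A → ∀ X P W D L : Finset V, Node R m X P (W ∩ D) L T →
    X ⊆ W → Up (flip R) W → A D → Up (flip Q) D → Ch A (9 * m + 3) W → Ch A (6 * m + 2) L →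
    ∃ t ≤ T + 1, t ≤ X.card ∧ H R m (Ch (Ch A (12 * m + 4)) 2) X t

/-- reversing the direction of time -/
theorem restart {T : ℕ} (ih : ∀ T' < T, Claim m A T') {R Q : V → V → Prop} (c : Setup R Q A)
    {X L M : Finset V} {T' : ℕ} (hT : T' ≤ T) (hs : Sched R m X T') (e : X = L ∩ M)
    (hL : Up R L) (hM : Up (flip R) M) (cL : Ch A (9 * m + 3) L) (cM : Ch A (6 * m + 2) M) :
    ∃ t ≤ T', t ≤ X.card ∧ H R m (Ch (Ch A (12 * m + 4)) 2) X t := by
  rcases T' with _ | T'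
  · obtain rfl := hs.eq_empty
    exact ⟨0, le_rfl, by simp, H.nil⟩
  obtain ⟨τ, hτ⟩ := hs.flip
  have hX : ∀ x, x ∈ X ↔ x ∈ L ∧ x ∈ M := fun x => by rw [e, mem_inter]
  obtain ⟨t, h1, h2, h3⟩ := ih T' (by omega) _ _ c.flip X ∅ L univ M
    ⟨by simp, ⟨τ, hτ, by simp⟩, by simp, fun x hx a => (a (by simp [((hX x).1 hx).1])).elim,
      fun x hx => ((hX x).1 hx).2, hM,
      fun x hx p hp hr => (hX x).2 ⟨hL _ _ hr ((hX p).1 hp).1, hx⟩,
      fun _ _ y h1 h2 h3 => (h3 ((hX y).2 ⟨(mem_inter.1 h2).1, h1⟩)).elim⟩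
    (fun x hx => ((hX x).1 hx).1) hL c.all (fun _ _ _ _ => mem_univ _) cL cM
  exact ⟨t, h1, h2, h3.flip⟩

/-- all jobs are pinned: remove the last slot -/
theorem peel {T : ℕ} (ih : ∀ T' < T, Claim m A T') {R Q : V → V → Prop} (c : Setup R Q A)
    {X P U L : Finset V} (h : Node R m X P U L T) (hU : Ch A (9 * m + 4) U)
    (cL : Ch A (6 * m + 2) L) (e : ∀ x ∈ X, x ∉ U) :
    ∃ t ≤ T + 1, t ≤ X.card ∧ H R m (Ch (Ch A (12 * m + 4)) 2) X t := by
  obtain ⟨τ, hτ⟩ := h.ex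
  have hm := h.card_le
  have k : ∀ x ∈ X \ P, ∃ p ∈ P, R x p := fun x hx =>
    (h.low x (mem_sdiff.1 hx).1 (e x (mem_sdiff.1 hx).1)).resolve_left (mem_sdiff.1 hx).2
  rcases P.eq_empty_or_nonempty with rfl | hne
  · obtain rfl : X = ∅ := eq_empty_of_forall_notMem fun x hx => by simpa using k x (by simpa)
    exact ⟨0, by omega, by simp, H.nil⟩
  obtain ⟨t, h1, h2, h3⟩ := restart ih c (X := X \ P) (L := L) (M := sc (flip R) P) le_rfl
    ⟨τ, fun x hx => by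
        obtain ⟨p, hp, hr⟩ := k x hx
        have := hτ.1.2.2 x (mem_sdiff.1 hx).1 p (h.sub hp) hr
        rwa [hτ.2 p hp] at this,
      fun s => (card_le_card (filter_subset_filter _ sdiff_subset)).trans (hτ.1.2.1 s),
      fun x hx y hy => hτ.1.2.2 x (mem_sdiff.1 hx).1 y (mem_sdiff.1 hy).1⟩
    (by
      ext x
      rw [mem_inter, mem_sc]
      exact ⟨fun hx => ⟨h.inL (mem_sdiff.1 hx).1, k x hx⟩, fun ⟨a, p, hp, hr⟩ =>
        mem_sdiff.2 ⟨h.cvx x a p (h.sub hp) hr, fun a => h.max a (h.sub hp) hr⟩⟩)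
    h.up
    (fun x y hr hx => by
      obtain ⟨p, hp, a⟩ := mem_sc.1 hx
      exact mem_sc.2 ⟨p, hp, c.tr _ _ _ hr a⟩)
    (cL.mono (by omega)) (((Ch.nil.un_sc c.pr P).mono (by omega)).congr (by simp))
  have e1 : X \ (X \ P ∪ ∅) = P := by rw [union_empty, Finset.sdiff_sdiff_eq_self h.sub]
  have e2 := card_sdiff_add_card_eq_card h.sub
  have e3 := hne.card_pos
  have e4 := h.name c hU (cL.mono (by omega))
  rw [show 9 * m + 4 + 3 * m = 12 * m + 4 by omega] at e4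
  refine ⟨t + 1, by omega, by omega, H.split h3 H.nil e4 ⟨by rw [e1]; exact hm, fun x y hr hx hy => ?_⟩
    le_rfl (by omega) (Or.inl le_rfl)⟩
  rw [e1] at hx hy
  exact h.max (by simpa using hx) (hy.elim (fun a => (mem_sdiff.1 a).1) fun a => h.sub a) hr

/-- the part after a cut at `S`: all jobs follow `S`, are pinned, or are the single job `j` -/
theorem box {T : ℕ} (ih : ∀ T' < T, Claim m A T') {R Q : V → V → Prop} (c : Setup R Q A)
    {X P W D L S : Finset V} {j : V} {T' : ℕ} (hT : T' < T) (h : Node R m X P (W ∩ D) L T')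
    (hW : X ⊆ W) (uW : Up (flip R) W) (aD : A D) (uD : Up (flip Q) D) (cW : Ch A (9 * m + 3) W)
    (cL : Ch A (9 * m + 3) L) (hS : S.card ≤ m) (hSL : sc R S ⊆ L) (hj : j ∈ L → j ∈ X)
    (hj' : ∀ x ∈ L, R x j → x ∈ X) (hjP : j ∉ P)
    (e : ∀ x ∈ X, x ∈ W ∩ D → x = j ∨ x ∈ sc R S) :
    ∃ t ≤ T' + 1, t ≤ X.card ∧ H R m (Ch (Ch A (12 * m + 4)) 2) X t := by
  have hm := h.card_le
  have uS : ∀ Y : Finset V, Up R (sc R Y) := fun Y x y hr hx => by
    obtain ⟨p, hp, a⟩ := mem_sc.1 hx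
    exact mem_sc.2 ⟨p, hp, c.tr _ _ _ a hr⟩
  have dS : ∀ Y : Finset V, Up (flip R) (sc (flip R) Y) := fun Y x y hr hx => by
    obtain ⟨p, hp, a⟩ := mem_sc.1 hx
    exact mem_sc.2 ⟨p, hp, c.tr _ _ _ hr a⟩
  obtain ⟨τ0, h0⟩ := h.ex
  obtain ⟨τ, b, hb, hτ, k1, k2, -⟩ := rigid (U := (X \ sc R S) \ P) c.tr (fun x hx y hy hr a => by
      simp only [mem_sdiff] at a ⊢
      exact ⟨⟨hx, fun a' => a.1.2 (uS S _ _ hr a')⟩, fun a' => h.max a' hy hr⟩)
    (fun p hp a => (mem_sdiff.1 a).2 hp) h0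
  obtain ⟨B, hB⟩ : ∃ B, B = X.filter fun x => τ x = b := ⟨_, rfl⟩
  have mB : ∀ x, x ∈ B ↔ x ∈ X ∧ τ x = b := fun x => by rw [hB, mem_filter]
  have cB : B.card ≤ m := hB ▸ hτ.1.2.1 b
  have b1 : ∀ x ∈ X, x ∈ sc R B → b < τ x := fun x hx a => by
    obtain ⟨p, hp, a⟩ := mem_sc.1 a
    rw [mB] at hp
    exact hp.2 ▸ hτ.1.2.2 p hp.1 x hx a
  have b2 : ∀ x ∈ X, x ∈ sc (flip R) B → τ x < b := fun x hx a => by
    obtain ⟨p, hp, a⟩ := mem_sc.1 a
    rw [mB] at hp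
    exact hp.2 ▸ hτ.1.2.2 x hx p hp.1 a
  have b3 : ∀ x ∈ X, x ∉ sc R S → x ∉ P → b < τ x → x ∈ sc R B := fun x hx a1 a2 a3 => by
    obtain ⟨p, hp, a4, a5⟩ := k1 x hx (by simp only [mem_sdiff]; tauto) a3
    exact mem_sc.2 ⟨p, (mB p).2 ⟨hp, a4⟩, a5⟩
  have b4 : ∀ x ∈ X, (x ∈ sc R S ∨ x ∈ P) → τ x < b → x ∈ sc (flip R) B := fun x hx a1 a2 => by
    obtain ⟨p, hp, a4, a5⟩ := k2 x hx (by simp only [mem_sdiff]; tauto) a2
    exact mem_sc.2 ⟨p, (mB p).2 ⟨hp, a4⟩, a5⟩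
  obtain ⟨t1, r1, r2, r3⟩ := restart ih c (X := X.filter fun x => τ x ≤ b) (L := L)
    (M := (((((sc (flip R) P ∪ sc (flip R) {j}) ∪ {j}) \ sc R S) \ sc R B) ∪ sc (flip R) B) ∪ B)
    (T' := b + 1) (by omega) ⟨τ, hτ.1.pre b⟩
    (by
      ext x
      simp only [mem_inter, mem_union, mem_sdiff, mem_filter, mem_singleton]
      constructor
      · rintro ⟨hx, a⟩
        refine ⟨h.inL hx, ?_⟩
        rcases Nat.lt_or_eq_of_le a with a | a
        swap
        · exact Or.inr ((mB x).2 ⟨hx, a⟩)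
        by_cases a1 : x ∈ sc R S ∨ x ∈ P
        · exact Or.inl (Or.inr (b4 x hx a1 a))
        rw [not_or] at a1
        refine Or.inl (Or.inl ⟨⟨?_, a1.1⟩, fun a2 => by have := b1 x hx a2; omega⟩)
        by_cases a2 : x ∈ W ∩ D
        · exact Or.inr ((e x hx a2).resolve_right a1.1)
        · exact Or.inl (Or.inl (mem_sc.2 ((h.low x hx a2).resolve_left a1.2)))
      · rintro ⟨a, (⟨⟨a1, a2⟩, a3⟩ | a1) | a1⟩
        · have a4 : x ∈ X ∧ x ∉ P := by
            rcases a1 with (a1 | a1) | rfl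
            · obtain ⟨p, hp, a1⟩ := mem_sc.1 a1
              exact ⟨h.cvx x a p (h.sub hp) a1, fun a5 => h.max a5 (h.sub hp) a1⟩
            · have a6 : R x j := by simpa [flip] using a1
              exact ⟨hj' x a a6, fun a5 => h.max a5 (hj (h.up _ _ a6 a)) a6⟩
            · exact ⟨hj a, hjP⟩
          exact ⟨a4.1, not_lt.1 fun a5 => a3 (b3 x a4.1 a2 a4.2 a5)⟩
        · obtain ⟨p, hp, a2⟩ := mem_sc.1 a1
          have a3 := h.cvx x a p ((mB p).1 hp).1 a2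
          exact ⟨a3, (b2 x a3 a1).le⟩
        · exact ⟨((mB x).1 a1).1, ((mB x).1 a1).2.le⟩)
    h.up
    (fun x y hr hx => by
      simp only [mem_union, mem_sdiff, mem_singleton] at hx ⊢
      rcases hx with (⟨⟨a1, a2⟩, a3⟩ | a1) | a1
      · refine Or.inl (Or.inl ⟨⟨Or.inl ?_, fun a => a2 (uS _ _ _ hr a)⟩,
          fun a => a3 (uS _ _ _ hr a)⟩)
        rcases a1 with (a1 | a1) | rfl
        exacts [Or.inl (dS _ _ _ hr a1), Or.inr (dS _ _ _ hr a1),
          Or.inr (mem_sc.2 ⟨x, mem_singleton_self x, hr⟩)]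
      · exact Or.inl (Or.inr (dS _ _ _ hr a1))
      · exact Or.inl (Or.inr (mem_sc.2 ⟨x, a1, hr⟩)))
    cL (((((((((Ch.nil.un_sc c.pr P).un (c.pr j)).un (c.si j)).df_sc c.su S).df_sc c.su B).un_sc
      c.pr B).un_set c.si B).mono (by omega)).congr (by simp))
  rcases Nat.eq_or_lt_of_le hb with rfl | hb
  · rw [filter_true_of_mem fun x hx => Nat.le_of_lt_succ (hτ.1.1 x hx)] at r2 r3
    exact ⟨t1, r1, r2, r3⟩
  obtain ⟨d, hd⟩ : ∃ d, T' = b + 1 + d := ⟨T' - b - 1, by omega⟩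
  have n2 := h.suf hτ hd (L' := ((((sc R S \ sc (flip R) B) \ B) ∪ sc R B) ∪ sc R P) ∪ P)
    (fun x hx => by
      simp only [mem_union, mem_sdiff] at hx
      rcases hx with ((a | a) | a) | a
      · exact hSL a.1.1
      · obtain ⟨p, hp, a⟩ := mem_sc.1 a
        exact h.up _ _ a (h.inL ((mB p).1 hp).1)
      · obtain ⟨p, hp, a⟩ := mem_sc.1 a
        exact h.up _ _ a (h.inL (h.sub hp))
      · exact h.inL (h.sub a))
    (fun x y hr hx => by
      simp only [mem_union, mem_sdiff] at hx ⊢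
      rcases hx with ((⟨⟨a1, a2⟩, a3⟩ | a) | a) | a
      · exact Or.inl (Or.inl (Or.inl ⟨⟨uS _ _ _ hr a1, fun a => a2 (dS _ _ _ hr a)⟩,
          fun a => a2 (mem_sc.2 ⟨y, a, hr⟩)⟩))
      · exact Or.inl (Or.inl (Or.inr (uS _ _ _ hr a)))
      · exact Or.inl (Or.inr (uS _ _ _ hr a))
      · exact Or.inl (Or.inr (mem_sc.2 ⟨x, a, hr⟩)))
    (fun x hx => by
      simp only [mem_union, mem_sdiff]
      constructor
      · rintro (((⟨⟨a1, a2⟩, a3⟩ | a) | a) | a)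
        · have a4 : ¬ τ x < b := fun a => a2 (b4 x hx (Or.inl a1) a)
          have a5 : τ x ≠ b := fun a => a3 ((mB x).2 ⟨hx, a⟩)
          omega
        · exact b1 x hx a
        · obtain ⟨p, hp, a⟩ := mem_sc.1 a
          exact (h.max hp hx a).elim
        · have := hτ.2 x a
          omega
      · intro a
        by_cases a1 : x ∈ P
        · exact Or.inr a1
        by_cases a2 : x ∈ sc R S
        · exact Or.inl (Or.inl (Or.inl ⟨⟨a2, fun a3 => by have := b2 x hx a3; omega⟩,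
            fun a3 => by have := ((mB x).1 a3).2; omega⟩))
        · exact Or.inl (Or.inl (Or.inr (b3 x hx a2 a1 a))))
  obtain ⟨t2, s1, s2, s3⟩ := ih d (by omega) R Q c _ P W D _ n2
    ((filter_subset _ _).trans hW) uW aD uD cW ((((((((Ch.nil.un_sc c.su S).df_sc c.pr B).df_set
      c.si B).un_sc c.su B).un_sc c.su P).un_set c.si P).mono (by omega)).congr (by simp))
  have e4 := h.name c (cW.it aD) (cL.mono (by omega))
  rw [show 9 * m + 3 + 1 + 3 * m = 12 * m + 4 by omega] at e4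
  obtain ⟨t, u1, u2⟩ := r3.join s3 e4
    (by ext x; simp only [mem_union, mem_filter]; by_cases a : τ x ≤ b <;> simp [a, not_le.1])
    (disjoint_filter.2 fun x _ a => not_lt.2 a) (fun x hx y hy hr => by
      rw [mem_filter] at hx hy
      have := hτ.1.2.2 x hx.1 y hy.1 hr
      omega) r2 s2
  exact ⟨t, by omega, u2⟩

theorem claim (T : ℕ) : Claim m A T := by
  induction T using Nat.strong_induction_on with
  | _ T ih =>
  intro R Q c X P W D L h hW uW aD uD cW cL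
  induction hn : (X ∩ (W ∩ D)).card using Nat.strong_induction_on generalizing P D with
  | _ n ihn =>
  rcases (X ∩ (W ∩ D)).eq_empty_or_nonempty with he | hne
  · exact peel ih c h (cW.it aD) cL fun x hx a => by
      have := mem_inter.2 ⟨hx, a⟩
      simp [he] at this
  obtain ⟨j, hj, hmax⟩ := c.top _ hne
  obtain ⟨D', hD'⟩ : ∃ D', D' = sc (flip Q) {j} := ⟨_, rfl⟩
  have mD : ∀ x, x ∈ D' ↔ Q x j := fun x => by simp [hD', flip]
  have aD' : A D' := hD' ▸ c.be j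
  have uD' : Up (flip Q) D' := fun x y hr hx => (mD y).2 (c.trQ _ _ _ hr ((mD x).1 hx))
  have hjD := (mem_inter.1 (mem_inter.1 hj).2).2
  have sD : W ∩ D' ⊆ W ∩ D := inter_subset_inter_left fun x hx => uD j x ((mD x).1 hx) hjD
  have uU : Up (flip R) (W ∩ D') := fun x y hr hx =>
    mem_inter.2 ⟨uW _ _ hr (mem_inter.1 hx).1, uD' _ _ (c.sub _ _ hr) (mem_inter.1 hx).2⟩
  obtain ⟨τ0, h0⟩ := h.ex
  obtain ⟨τ, b, hb, hτ, k1, k2, k3⟩ := rigid (U := W ∩ D') c.tr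
    (fun x _ y _ hr a => uU _ _ hr a) (fun p hp a => h.dis p hp (sD a)) h0
  have n1 := h.pre c.tr sD uU hb hτ k2 k3
  rcases Nat.eq_or_lt_of_le hb with rfl | hb
  · rw [filter_true_of_mem fun x hx => Nat.le_of_lt_succ (hτ.1.1 x hx)] at n1
    refine ihn _ ?_ _ D' n1 aD' uD' rfl
    rw [← hn]
    refine card_lt_card ⟨inter_subset_inter_left sD, fun a => c.irr j ?_⟩
    exact (mD j).1 (mem_inter.1 (mem_inter.1 (a hj)).2).2
  obtain ⟨t1, r1, r2, r3⟩ := ih b hb R Q c _ _ W D' L n1 ((filter_subset _ _).trans hW) uW aD' uD'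
    cW cL
  obtain ⟨d, hd⟩ : ∃ d, T = b + 1 + d := ⟨T - b - 1, by omega⟩
  obtain ⟨S, hS⟩ : ∃ S, S = X.filter fun x => τ x = b := ⟨_, rfl⟩
  have mS : ∀ x, x ∈ S ↔ x ∈ X ∧ τ x = b := fun x => by rw [hS, mem_filter]
  have cS : S.card ≤ m := hS ▸ hτ.1.2.1 b
  have b3 : ∀ x ∈ X, x ∈ D' → b < τ x → x ∈ sc R S := fun x hx a1 a2 => by
    obtain ⟨p, hp, a4, a5⟩ := k1 x hx (mem_inter.2 ⟨hW hx, a1⟩) a2
    exact mem_sc.2 ⟨p, (mS p).2 ⟨hp, a4⟩, a5⟩
  have sL : ((L \ D') \ sc (flip R) S) \ S ∪ sc R S ⊆ L := fun x hx => by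
    simp only [mem_union, mem_sdiff] at hx
    rcases hx with a | a
    · exact a.1.1.1
    · obtain ⟨p, hp, a⟩ := mem_sc.1 a
      exact h.up _ _ a (h.inL ((mS p).1 hp).1)
  have mL : ∀ x ∈ X, x ∈ ((L \ D') \ sc (flip R) S) \ S ∪ sc R S ↔ b < τ x := fun x hx => by
    simp only [mem_union, mem_sdiff]
    constructor
    · rintro (⟨⟨⟨-, a1⟩, a2⟩, a3⟩ | a)
      · have a4 : ¬ τ x < b := fun a => by
          obtain ⟨p, hp, a4, a5⟩ := k2 x hx (fun a => a1 (mem_inter.1 a).2) a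
          exact a2 (mem_sc.2 ⟨p, (mS p).2 ⟨hp, a4⟩, a5⟩)
        have a5 : τ x ≠ b := fun a => a3 ((mS x).2 ⟨hx, a⟩)
        omega
      · obtain ⟨p, hp, a⟩ := mem_sc.1 a
        rw [mS] at hp
        exact hp.2 ▸ hτ.1.2.2 p hp.1 x hx a
    · intro a
      by_cases a1 : x ∈ D'
      · exact Or.inr (b3 x hx a1 a)
      · refine Or.inl ⟨⟨⟨h.inL hx, a1⟩, fun a2 => ?_⟩, fun a2 => ?_⟩
        · obtain ⟨p, hp, a2⟩ := mem_sc.1 a2
          rw [mS] at hp
          have := hτ.1.2.2 x hx p hp.1 a2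
          omega
        · have := ((mS x).1 a2).2
          omega
  have n2 := h.suf hτ hd sL (fun x y hr hx => by
      simp only [mem_union, mem_sdiff] at hx ⊢
      rcases hx with ⟨⟨⟨a1, a2⟩, a3⟩, -⟩ | a
      · refine Or.inl ⟨⟨⟨h.up _ _ hr a1, fun a => a2 (uD' _ _ (c.sub _ _ hr) a)⟩, fun a => ?_⟩,
          fun a => a3 (mem_sc.2 ⟨y, a, hr⟩)⟩
        obtain ⟨p, hp, a⟩ := mem_sc.1 a
        exact a3 (mem_sc.2 ⟨p, hp, c.tr _ _ _ hr a⟩)
      · obtain ⟨p, hp, a⟩ := mem_sc.1 a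
        exact Or.inr (mem_sc.2 ⟨p, hp, c.tr _ _ _ a hr⟩)) mL
  have hjX := (mem_inter.1 hj).1
  obtain ⟨t2, s1, s2, s3⟩ := box ih c (S := S) (j := j) (by omega) n2
    ((filter_subset _ _).trans hW) uW aD uD cW
    (((((cL.df aD').df_sc c.pr S).df_set c.si S).un_sc c.su S).mono (by omega)) cS
    subset_union_right (fun a => mem_filter.2 ⟨hjX, (mL j hjX).1 a⟩)
    (fun x hx hr => by
      have a := h.cvx x (sL hx) j hjX hr
      exact mem_filter.2 ⟨a, (mL x a).1 hx⟩)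
    (fun a => h.dis j a (mem_inter.1 hj).2)
    (fun x hx a => by
      rw [mem_filter] at hx
      by_cases a1 : x = j
      · exact Or.inl a1
      · exact Or.inr (b3 x hx.1 ((mD x).2 (hmax x (mem_inter.2 ⟨hx.1, a⟩) a1)) hx.2))
  have e4 := h.name c (cW.it aD) (cL.mono (by omega))
  rw [show 9 * m + 3 + 1 + 3 * m = 12 * m + 4 by omega] at e4
  obtain ⟨t, u1, u2⟩ := r3.join s3 e4
    (by ext x; simp only [mem_union, mem_filter]; by_cases a : τ x ≤ b <;> simp [a, not_le.1])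
    (disjoint_filter.2 fun x _ a => not_lt.2 a) (fun x hx y hy hr => by
      rw [mem_filter] at hx hy
      have := hτ.1.2.2 x hx.1 y hy.1 hr
      omega) r2 s2
  exact ⟨t, by omega, u2⟩

theorem complete_poly {R Q : V → V → Prop} (c : Setup R Q A) {T : ℕ} (h : Sched R m univ T) :
    ∃ t ≤ T, t ≤ Fintype.card V ∧ H R m (Ch (Ch A (12 * m + 4)) 2) univ t :=
  restart (T := T) (fun T' _ => claim T') c (L := univ) (M := univ) le_rfl h (by simp)
    (fun _ _ _ _ => mem_univ _) (fun _ _ _ _ => mem_univ _) ((Ch.one c.all).mono (by omega))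
    ((Ch.one c.all).mono (by omega))

end Vale.Agent.P324
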