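import Vale.Agent.P324.Poly
import Vale.Agent.P324.Final

/-! The polynomial time algorithm for a fixed number of machines. -/

namespace Vale.Agent.P324

open Vale.Agent.Lib.H23 Vale.Agent.P333 Enc Turing Finset

def atoms2 (W : LS) (P : Rl) : List LS :=
  W :: W.flatMap fun x => [W.filter fun y => rel P x y, W.filter fun y => rel P y x,
    W.filter fun y => eqb y x, W.filter fun y => ltb (rank W P x) (rank W P y),
    W.filter fun y => ltb (rank W P y) (rank W P x)]

def round2 (W : LS) (P : Rl) (m : ℕ) (F : List LS) (tab : List (LS × ℕ)) (t : ℕ) :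
    List (LS × ℕ) :=
  tab ++ (F.filter fun X => tab.any fun a => tab.any fun b => okb W P m X a.1 b.1 &&
    (leb (a.2 + b.2) t || ((rest W X a.1 b.1).isEmpty && leb (a.2 + b.2) (t + 1)))).map
      fun X => (X, t + 1)

def answer2 (W : LS) (P : Rl) (m T : ℕ) (F : List LS) : Bool :=
  ((W.take T).foldl (round2 W P m F) [([], 0)]).any fun a => W.all fun x => mem a.1 x

def chain2 (r : ℕ) (W : LS) (A : List LS) : List LS := (grow W A)^[r] [[]]

def alg2 (m : ℕ) (x : ℕ × List LS) : Bool :=
  answer2 (rg x.2) (clo x.2) m x.1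
    (chain2 2 (rg x.2) (chain2 (12 * m + 4) (rg x.2) (atoms2 (rg x.2) (clo x.2))))

section

variable {α : Type} [Enc α]

@[fun_prop] theorem pt_atoms2 {w : α → LS} {a : α → Rl} (hw : PT w) (ha : PT a) :
    PT (fun x => atoms2 (w x) (a x)) := by unfold atoms2; fun_prop

@[fun_prop] theorem pt_chain2 (r : ℕ) {w : α → LS} {a : α → List LS} (hw : PT w) (ha : PT a) :
    PT (fun x => chain2 r (w x) (a x)) := by
  induction r with
  | zero => exact PT.const _
  | succ r ih => exact (pt_grow hw ha ih).congr fun x => Function.iterate_succ_apply' _ _ _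

@[fun_prop] theorem pt_answer2 {w : α → LS} {p : α → Rl} {m T : α → ℕ} {F : α → List LS}
    (hw : PT w) (hp : PT p) (hm : PT m) (hT : PT T) (hF : PT F) :
    PT (fun x => answer2 (w x) (p x) (m x) (T x) (F x)) := by
  have key : PT (fun x =>
      ((w x).take (T x)).foldl (round2 (w x) (p x) (m x) (F x)) [([], 0)]) := by
    refine pt_fold (f := fun x => round2 (w x) (p x) (m x) (F x))
      (fun q => (F q.1).map fun X => (X, q.2 + 1))
      (by unfold round2; fun_prop) (by fun_prop) (by fun_prop) (by fun_prop) fun x s a => ?_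
    unfold round2
    generalize (fun X => s.any fun a' => s.any fun b => okb (w x) (p x) (m x) X a'.1 b.1 &&
      (leb (a'.2 + b.2) a || ((rest (w x) X a'.1 b.1).isEmpty && leb (a'.2 + b.2) (a + 1)))) = q
    have h1 := sz_append s (((F x).filter q).map fun X => (X, a + 1))
    have h2 := sz_sublist ((List.filter_sublist (l := F x) (p := q)).map fun X => (X, a + 1))
    simp only
    omega
  unfold answer2
  fun_prop

theorem pt_alg2 (m : ℕ) : PT (alg2 m) := by unfold alg2; fun_prop

end

variable {n : ℕ}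

theorem rest_empty (X A B : LS) :
    (rest (List.range n) X A B).isEmpty = true ↔ dec n X ⊆ dec n A ∪ dec n B := by
  simp only [rest, List.isEmpty_iff, List.filter_eq_nil_iff, List.mem_range, subset_iff, mem_union,
    mem_dec, Bool.and_eq_true, mem_iff, Bool.not_eq_true', Bool.or_eq_false_iff, mem_false]
  constructor
  · intro h x hx
    have := h x x.2
    tauto
  · intro h x hx
    have := @h ⟨x, hx⟩
    tauto

theorem table_spec2 {P : Rl} (hP : ∀ p ∈ P, p.1 < n ∧ p.2 < n) (m : ℕ) (F : List LS) (k : ℕ) :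
    (∀ a ∈ (List.range k).foldl (round2 (List.range n) P m F) [([], 0)],
      a.2 ≤ k ∧ H (RP n P) m (Occ n F) (dec n a.1) a.2) ∧
    ∀ X t, H (RP n P) m (Occ n F) X t → t ≤ k →
      ∃ a, (a, t) ∈ (List.range k).foldl (round2 (List.range n) P m F) [([], 0)] ∧
        dec n a = X := by
  induction k with
  | zero =>
    have e : dec n [] = ∅ := by ext; simp
    refine ⟨by simpa [e] using H.nil, fun X t h ht => ?_⟩
    cases h with
    | nil => exact ⟨[], by simp, e⟩
    | split => omega
  | succ k ih =>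
    rw [List.range_succ, List.foldl_append, List.foldl_cons, List.foldl_nil]
    generalize (List.range k).foldl (round2 (List.range n) P m F) [([], 0)] = tab at ih
    simp only [round2, List.mem_append, List.mem_map, List.mem_filter, List.any_eq_true,
      Bool.and_eq_true, Bool.or_eq_true, leb_iff, okb_iff hP, rest_empty]
    refine ⟨?_, fun X t h ht => ?_⟩
    · rintro a (ha | ⟨X, ⟨h1, b, hb, c, hc, h2, h3⟩, rfl⟩)
      · exact ⟨(ih.1 a ha).1.trans (by omega), (ih.1 a ha).2⟩
      · exact ⟨le_rfl, H.split (ih.1 b hb).2 (ih.1 c hc).2 ⟨X, h1, rfl⟩ h2 (ih.1 b hb).1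
          (ih.1 c hc).1 h3⟩
    · rcases Nat.lt_or_eq_of_le ht with ht | rfl
      · obtain ⟨a, h1, h2⟩ := ih.2 X t h (by omega)
        exact ⟨a, Or.inl h1, h2⟩
      · cases h with
        | split h1 h2 h3 h4 h5 h6 h7 =>
          obtain ⟨a, ha, rfl⟩ := ih.2 _ _ h1 h5
          obtain ⟨b, hb, rfl⟩ := ih.2 _ _ h2 h6
          obtain ⟨c, hc, rfl⟩ := h3
          exact ⟨c, Or.inr ⟨c, ⟨hc, _, ha, _, hb, h4, h7⟩, rfl⟩, rfl⟩

theorem answer2_iff {P : Rl} (hP : ∀ p ∈ P, p.1 < n ∧ p.2 < n) (m T : ℕ) (F : List LS) :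
    answer2 (List.range n) P m T F = true ↔ ∃ t ≤ T, t ≤ n ∧ H (RP n P) m (Occ n F) univ t := by
  obtain ⟨h1, h2⟩ := table_spec2 hP m F (min T n)
  simp only [answer2, List.take_range, List.any_eq_true, List.all_eq_true, mem_iff, List.mem_range]
  constructor
  · rintro ⟨a, ha, h⟩
    obtain ⟨h3, h4⟩ := h1 a ha
    have e : dec n a.1 = univ := by ext x; simpa using h x x.2
    exact ⟨a.2, by omega, by omega, e ▸ h4⟩
  · rintro ⟨t, h3, h4, h5⟩
    obtain ⟨a, ha, e⟩ := h2 _ _ h5 (by omega)
    exact ⟨_, ha, fun x hx => mem_dec.1 (e ▸ mem_univ (⟨x, hx⟩ : Fin n))⟩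

theorem setup_atoms {P : Rl} (htr : ∀ x y z, RP n P x y → RP n P y z → RP n P x z)
    (hir : ∀ x, ¬ RP n P x x) :
    Setup (RP n P) (fun x y => rank (List.range n) P x < rank (List.range n) P y)
      (Occ n (atoms2 (List.range n) P)) := by
  have ne : ∀ x y : Fin n, x ≠ y → rank (List.range n) P x ≠ rank (List.range n) P y :=
    fun x y h e => h (rank_inj P e)
  have k : ∀ (x : Fin n) (a : LS), a ∈ [(List.range n).filter fun y => rel P x y,
      (List.range n).filter fun y => rel P y x, (List.range n).filter fun y => eqb y x,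
      (List.range n).filter fun y => ltb (rank (List.range n) P x) (rank (List.range n) P y),
      (List.range n).filter fun y => ltb (rank (List.range n) P y) (rank (List.range n) P x)] →
      a ∈ atoms2 (List.range n) P := fun x a h =>
    List.mem_cons_of_mem _ (List.mem_flatMap.2 ⟨x, by simp, h⟩)
  refine ⟨htr, fun _ _ _ => lt_trans, fun x y h => lt_of_le_of_ne (rank_mono htr hir x y h)
      (ne x y fun e => hir x (e ▸ h)), fun _ => lt_irrefl _, fun Z hZ => ?_, fun Z hZ => ?_,
    ⟨_, List.mem_cons_self, by ext; simp⟩,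
    fun x => ⟨_, k x _ List.mem_cons_self, by ext; simp [rel_iff, RP]⟩,
    fun x => ⟨_, k x _ (List.mem_cons_of_mem _ List.mem_cons_self),
      by ext; simp [rel_iff, RP, flip]⟩,
    fun x => ⟨_, k x _ (List.mem_cons_of_mem _ (List.mem_cons_of_mem _ List.mem_cons_self)),
      by ext; simp [Fin.ext_iff]⟩,
    fun x => ⟨_, k x _ (List.mem_cons_of_mem _ (List.mem_cons_of_mem _
      (List.mem_cons_of_mem _ List.mem_cons_self))), by ext; simp⟩,
    fun x => ⟨_, k x _ (List.mem_cons_of_mem _ (List.mem_cons_of_mem _ (List.mem_cons_of_mem _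
      (List.mem_cons_of_mem _ List.mem_cons_self)))), by ext; simp [flip]⟩⟩
  · obtain ⟨j, h1, h2⟩ := exists_max_image Z (fun x => rank (List.range n) P x) hZ
    exact ⟨j, h1, fun x hx h => lt_of_le_of_ne (h2 x hx) (ne x j h)⟩
  · obtain ⟨j, h1, h2⟩ := exists_min_image Z (fun x => rank (List.range n) P x) hZ
    exact ⟨j, h1, fun x hx h => lt_of_le_of_ne (h2 x hx) (ne j x h.symm)⟩

theorem alg2_iff (m T : ℕ) (adj : List LS) :
    alg2 m (T, adj) = true ↔
      ∃ τ : Fin adj.length → ℕ, (∀ v, 1 ≤ τ v ∧ τ v ≤ T) ∧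
        (∀ s, (univ.filter fun v => τ v = s).card ≤ m) ∧
        ∀ u v : Fin adj.length, v.val ∈ adj.get u → τ u < τ v := by
  obtain ⟨c1, c2, htr⟩ := clo_spec adj (fun _ _ => True) (by simp) (by simp)
  have eg : ∀ u : Fin adj.length, adj.getD u [] = adj.get u := fun u => by simp
  unfold alg2
  simp only [rg, chain2]
  rw [answer2_iff fun p hp => ⟨(c1 p hp).1, (c1 p hp).2.1⟩]
  constructor
  · rintro ⟨t, h1, -, h2⟩
    obtain ⟨τ, k1, k2, k3⟩ := h2.sound
    refine ⟨fun v => τ v + 1, fun v => ?_, fun s => ?_, fun u v h => ?_⟩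
    · have := k1 v (mem_univ _)
      simp only
      omega
    · refine (card_le_card fun v hv => ?_).trans (k2 (s - 1))
      simp only [mem_filter, mem_univ, true_and] at hv ⊢
      omega
    · exact Nat.succ_lt_succ (k3 u (mem_univ _) v (mem_univ _) (c2 u v u.2 v.2 (eg u ▸ h)))
  · rintro ⟨τ, k1, k2, k3⟩
    obtain ⟨c3, -⟩ := clo_spec adj (fun x y => ∃ hx hy, τ ⟨x, hx⟩ < τ ⟨y, hy⟩)
      (fun x y z ⟨h1, _, h2⟩ ⟨_, h3, h4⟩ => ⟨h1, h3, h2.trans h4⟩)
      (fun x y hx hy h => ⟨hx, hy, k3 ⟨x, hx⟩ ⟨y, hy⟩ (eg ⟨x, hx⟩ ▸ h)⟩)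
    have c4 : ∀ x y, RP adj.length (clo adj) x y → τ x < τ y := fun x y h => by
      obtain ⟨-, -, _, _, h⟩ := c3 _ h
      exact h
    have hs : Sched (RP adj.length (clo adj)) m univ T := by
      refine ⟨fun v => τ v - 1, fun v _ => ?_, fun s => ?_, fun u _ v _ h => ?_⟩
      · have := k1 v
        simp only
        omega
      · refine (card_le_card fun v hv => ?_).trans (k2 (s + 1))
        have := k1 v
        simp only [mem_filter, mem_univ, true_and] at hv ⊢
        omega
      · have := c4 u v h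
        have := k1 u
        simp only
        omega
    obtain ⟨t, h1, h2, h3⟩ := complete_poly (setup_atoms htr fun x h => lt_irrefl _ (c4 x x h)) hs
    exact ⟨t, h1, by simpa using h2, h3.imp fun X => occ_grow fun X => occ_grow fun X h => h⟩

theorem poly (m : ℕ) : ∃ (f : ℕ × List (List ℕ) → Bool)
    (M : TM2ComputableInPolyTime (bPair bNat (bList (bList bNat))) bBool f),
    (∀ k, Finite (M.tm.Γ k)) ∧ ∀ (T : ℕ) (adj : List (List ℕ)),
      (f (T, adj) = true ↔ ∃ τ : Fin adj.length → ℕ, (∀ v, 1 ≤ τ v ∧ τ v ≤ T) ∧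
        (∀ s, (Finset.univ.filter fun v => τ v = s).card ≤ m) ∧
        ∀ u v : Fin adj.length, v.val ∈ adj.get u → τ u < τ v) := by
  obtain ⟨c, P, h⟩ := pt_alg2 m
  have key : ∀ x : ℕ × List (List ℕ), TM2OutputsInTime (compile c)
      (List.map (id : Bool → Bool) (bPair bNat (bList (bList bNat)) x))
      (some (List.map (id : Bool → Bool) (bBool (alg2 m x))))
      ((P + 1).eval (bPair bNat (bList (bList bNat)) x).length) := by
    intro x
    have e : ser (enc x) = bPair bNat (bList (bList bNat)) x := by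
      obtain ⟨T, adj⟩ := x
      rw [enc_pair, ser, ser_nat', ser_list' (ser_list' ser_nat')]
      rfl
    have h1 := (h x).outputs
    rw [sz, Tr.size, e, ser_bool'] at h1
    rw [← List.map_id (bPair bNat (bList (bList bNat)) x), ← List.map_id (bBool (alg2 m x)),
      List.length_map] at h1
    rw [Polynomial.eval_add, Polynomial.eval_one]
    exact Classical.choice h1
  exact ⟨alg2 m, ⟨⟨compile c, Equiv.refl _, Equiv.refl _⟩, P + 1, key⟩,
    fun _ => (inferInstance : Finite Bool), alg2_iff m⟩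

end Vale.Agent.P324
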