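import Vale.Agent.P324.Split

/-! The rigid cut lemma. -/

namespace Vale.Agent.P324

open Finset

variable {V : Type} [DecidableEq V] {R : V → V → Prop} {m : ℕ}

theorem Fits.glue {A B : Finset V} {a b : ℕ} {σ τ : V → ℕ} (hA : Fits R m A a σ)
    (hB : Fits R m B b τ) (h : ∀ x ∈ B, ∀ y ∈ A, ¬ R x y) :
    Fits R m (A ∪ B) (a + b) (fun x => if x ∈ A then σ x else a + τ x) := by
  obtain ⟨h1, h2, h3⟩ := hA
  obtain ⟨k1, k2, k3⟩ := hB
  refine ⟨fun x hx => ?_, fun s => ?_, fun x hx y hy hr => ?_⟩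
  · by_cases hx' : x ∈ A
    · have := h1 x hx'; simp only [hx', if_true]; omega
    · have := k1 x (by simpa [hx'] using hx); simp only [hx', if_false]; omega
  · by_cases hs : s < a
    · refine (card_le_card fun x hx => ?_).trans (h2 s)
      rw [mem_filter] at hx ⊢
      by_cases hx' : x ∈ A
      · simpa [hx'] using hx.2
      · have := hx.2; simp only [hx', if_false] at this; omega
    · refine (card_le_card fun x hx => ?_).trans (k2 (s - a))
      rw [mem_filter] at hx ⊢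
      by_cases hx' : x ∈ A
      · have := hx.2; have := h1 x hx'; simp only [hx', if_true] at *; omega
      · have := hx.2; simp only [hx', if_false] at this
        exact ⟨by simpa [hx'] using hx.1, by omega⟩
  · by_cases hx' : x ∈ A <;> by_cases hy' : y ∈ A <;> simp only [hx', hy', if_true, if_false]
    · exact h3 x hx' y hy' hr
    · have := h1 x hx'; omega
    · exact (h x (by simpa [hx'] using hx) y hy' hr).elim
    · have := k3 x (by simpa [hx'] using hx) y (by simpa [hy'] using hy) hr; omega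

omit [DecidableEq V] in
theorem Fits.pre {X : Finset V} {T : ℕ} {τ : V → ℕ} (h : Fits R m X T τ) (b : ℕ) :
    Fits R m (X.filter fun x => τ x ≤ b) (b + 1) τ :=
  ⟨fun _ hx => Nat.lt_succ_of_le (mem_filter.1 hx).2,
    fun s => (card_le_card (filter_subset_filter _ (filter_subset _ _))).trans (h.2.1 s),
    fun x hx y hy => h.2.2 x (mem_filter.1 hx).1 y (mem_filter.1 hy).1⟩

omit [DecidableEq V] in
theorem Fits.suf {X : Finset V} {T : ℕ} {τ : V → ℕ} (h : Fits R m X (T + 1) τ) (b : ℕ) :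
    Fits R m (X.filter fun x => b < τ x) (T - b) (fun x => τ x - (b + 1)) := by
  refine ⟨fun x hx => ?_, fun s => ?_, fun x hx y hy hr => ?_⟩
  · rw [mem_filter] at hx
    have := h.1 x hx.1
    simp only
    omega
  · refine (card_le_card fun x hx => ?_).trans (h.2.1 (s + (b + 1)))
    simp only [mem_filter] at hx ⊢
    exact ⟨hx.1.1, by omega⟩
  · rw [mem_filter] at hx hy
    have := h.2.2 x hx.1 y hy.1 hr
    simp only
    omega

/-- new schedules of the part up to slot `b` and of the part after it -/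
theorem Fits.mix {X : Finset V} {T b c : ℕ} {τ σ ρ : V → ℕ} (h : Fits R m X T τ)
    (h1 : Fits R m (X.filter fun x => τ x ≤ b) (b + 1) σ)
    (h2 : Fits R m (X.filter fun x => b < τ x) c ρ) :
    Fits R m X (b + 1 + c) (fun x => if x ∈ X.filter (fun x => τ x ≤ b) then σ x
      else b + 1 + ρ x) := by
  have e : X.filter (fun x => τ x ≤ b) ∪ X.filter (fun x => b < τ x) = X := by
    ext x
    simp only [mem_union, mem_filter]
    by_cases hx : τ x ≤ b <;> simp [hx, not_le.1]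
  have := h1.glue h2 fun x hx y hy hr => by
    rw [mem_filter] at hx hy
    have := h.2.2 x hx.1 y hy.1 hr
    omega
  rwa [e] at this

/-- schedules in the slots `0, …, T` with `P` in the last slot -/
def Pin (R : V → V → Prop) (m : ℕ) (X P : Finset V) (T : ℕ) (τ : V → ℕ) : Prop :=
  Fits R m X (T + 1) τ ∧ ∀ p ∈ P, τ p = T

def cnt (X U : Finset V) (τ : V → ℕ) (t : ℕ) : ℕ := ((X ∩ U).filter fun u => t < τ u).card

/-- lexicographic optimality from the end, down to the slot `b` -/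
def Opt (R : V → V → Prop) (m : ℕ) (X P U : Finset V) (T : ℕ) (τ : V → ℕ) (b : ℕ) : Prop :=
  ∀ t, b ≤ t → ∀ σ, Pin R m X P T σ → (∀ t', t < t' → cnt X U σ t' = cnt X U τ t') →
    cnt X U τ t ≤ cnt X U σ t

variable {X P U : Finset V} {T : ℕ}

theorem Opt.congr {τ ρ : V → ℕ} {b : ℕ} (h : Opt R m X P U T τ b)
    (e : ∀ t, b ≤ t → cnt X U ρ t = cnt X U τ t) : Opt R m X P U T ρ b := fun t ht σ hσ hs => by
  rw [e t ht]
  exact h t ht σ hσ fun t' ht' => by rw [hs t' ht', e t' (by omega)]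

theorem exists_opt {τ : V → ℕ} (h : Pin R m X P T τ) (U : Finset V) (d : ℕ) :
    ∃ σ, Pin R m X P T σ ∧ Opt R m X P U T σ (T - d) := by
  induction d with
  | zero =>
    refine ⟨τ, h, fun t ht σ _ _ => ?_⟩
    have : cnt X U τ t = 0 := by
      rw [cnt, card_eq_zero, filter_eq_empty_iff]
      intro x hx
      have := h.1.1 x (mem_inter.1 hx).1
      omega
    omega
  | succ d ih =>
    obtain ⟨σ, h1, h2⟩ := ih
    obtain ⟨ρ, h3, h4⟩ := WellFounded.has_min (measure fun ρ => cnt X U ρ (T - (d + 1))).wf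
      {ρ | Pin R m X P T ρ ∧ ∀ t, T - (d + 1) < t → cnt X U ρ t = cnt X U σ t}
      ⟨σ, h1, fun _ _ => rfl⟩
    refine ⟨ρ, h3.1, fun t ht π hπ hs => ?_⟩
    rcases Nat.lt_or_eq_of_le ht with ht | rfl
    · rw [h3.2 t ht]
      exact h2 t (by omega) π hπ fun t' ht' => by rw [hs t' ht', h3.2 t' (by omega)]
    · exact not_lt.1 (h4 π ⟨hπ, fun t' ht' => by rw [hs t' ht', h3.2 t' ht']⟩)

theorem Opt.noswap {τ : V → ℕ} {b : ℕ} (h : Opt R m X P U T τ b) (hτ : Pin R m X P T τ)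
    (hP : ∀ p ∈ P, p ∉ U) {x u : V} (hx : x ∈ X) (hu : u ∈ X) (hxU : x ∉ U) (huU : u ∈ U)
    (hb : b ≤ τ x) (hlt : τ x < τ u) (h1 : ∀ p ∈ X, R p u → τ p < τ x) :
    ∃ y ∈ X, R x y ∧ τ y ≤ τ u := by
  by_contra hc
  push Not at hc
  have hu' := hτ.1.1 u hu
  have e : ∀ z ∈ X ∩ U, z ≠ u → Equiv.swap x u z = z := fun z hz h =>
    Equiv.swap_apply_of_ne_of_ne (fun e => hxU (e ▸ (mem_inter.1 hz).2)) h
  have h2 := h (τ u - 1) (by omega) _ ⟨hτ.1.swap hx hu hlt h1 hc, fun p hp => by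
      have := hτ.2 p hp
      have a1 : p ≠ x := fun e => by subst e; omega
      have a2 : p ≠ u := fun e => hP p hp (e ▸ huU)
      simp only [Equiv.swap_apply_of_ne_of_ne a1 a2, this]⟩ fun t ht => by
    unfold cnt
    congr 1
    refine filter_congr fun z hz => ?_
    by_cases a : z = u
    · subst a
      simp only [Equiv.swap_apply_right]
      omega
    · simp only [e z hz a]
  refine absurd h2 (not_le.2 (card_lt_card ⟨fun z hz => ?_, fun hs => ?_⟩))
  · rw [mem_filter] at hz ⊢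
    by_cases a : z = u
    · subst a
      exact ⟨hz.1, by omega⟩
    · exact ⟨hz.1, by simpa only [e z hz.1 a] using hz.2⟩
  · have := hs (mem_filter.2 ⟨mem_inter.2 ⟨hu, huU⟩, (by omega : τ u - 1 < τ u)⟩)
    simp only [mem_filter, Equiv.swap_apply_right] at this
    omega

/-- every job of `U` after slot `s` has a predecessor in slot `s` -/
def Tight (R : V → V → Prop) (X U : Finset V) (τ : V → ℕ) (s : ℕ) : Prop :=
  ∀ u ∈ X, u ∈ U → s < τ u → ∃ p ∈ X, τ p = s ∧ R p u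

theorem Opt.first (htr : ∀ x y z, R x y → R y z → R x z)
    (hU : ∀ x ∈ X, ∀ y ∈ X, R x y → y ∈ U → x ∈ U) {τ : V → ℕ} {b : ℕ}
    (h : Opt R m X P U T τ b) (hτ : Pin R m X P T τ) (hP : ∀ p ∈ P, p ∉ U) (hb : b ≤ T) :
    ∃ s, b ≤ s ∧ s ≤ T ∧ Tight R X U τ s ∧
      ∀ x ∈ X, x ∉ U → b ≤ τ x → τ x < s → ∃ p ∈ X, τ p = s ∧ R x p := by
  classical
  have hT : b ≤ T ∧ Tight R X U τ T := ⟨hb, fun u hu _ hs => by have := hτ.1.1 u hu; omega⟩
  have hex : ∃ s, b ≤ s ∧ Tight R X U τ s := ⟨T, hT⟩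
  obtain ⟨s0, ⟨hb0, hs0⟩, hT, hfirst⟩ : ∃ s0, (b ≤ s0 ∧ Tight R X U τ s0) ∧ s0 ≤ T ∧
      ∀ s < s0, ¬ (b ≤ s ∧ Tight R X U τ s) :=
    ⟨Nat.find hex, Nat.find_spec hex, Nat.find_min' hex hT, fun s hs => Nat.find_min hex hs⟩
  have key : ∀ d, ∀ x ∈ X, x ∉ U → b ≤ τ x → τ x + d + 1 = s0 → ∃ p ∈ X, τ p = s0 ∧ R x p := by
    intro d
    induction d using Nat.strong_induction_on with
    | _ d ih =>
      intro x hx hxU hbx hd
      have hn : ¬ Tight R X U τ (τ x) := fun hc => hfirst (τ x) (by omega) ⟨hbx, hc⟩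
      simp only [Tight, not_forall] at hn
      obtain ⟨u0, hu0, hu0U, hu0s, hu0p⟩ := hn
      obtain ⟨u, hu, humin⟩ := exists_min_image
        (X.filter fun u => u ∈ U ∧ τ x < τ u ∧ ¬ ∃ p ∈ X, τ p = τ x ∧ R p u) τ
        ⟨u0, by rw [mem_filter]; exact ⟨hu0, hu0U, hu0s, hu0p⟩⟩
      rw [mem_filter] at hu
      obtain ⟨hu, huU, hus, hup⟩ := hu
      have hp : ∀ p ∈ X, R p u → τ p < τ x := by
        intro p hp hr
        by_contra hc
        have h1 : τ p ≠ τ x := fun e => hup ⟨p, hp, e, hr⟩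
        have h2 := hτ.1.2.2 p hp u hu hr
        have h3 := humin p (by
          rw [mem_filter]
          exact ⟨hp, hU p hp u hu hr huU, by omega,
            fun ⟨q, hq, e, hq'⟩ => hup ⟨q, hq, e, htr _ _ _ hq' hr⟩⟩)
        omega
      have hu0 : τ u ≤ s0 := by
        by_contra hc
        obtain ⟨p, hp1, hp2, hp3⟩ := hs0 u hu huU (by omega)
        have := hp p hp1 hp3
        omega
      obtain ⟨y, hy, hxy, hyu⟩ := h.noswap hτ hP hx hu hxU huU hbx hus hp
      have h4 := hτ.1.2.2 x hx y hy hxy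
      by_cases e : τ y = s0
      · exact ⟨y, hy, e, hxy⟩
      · obtain ⟨p, hp1, hp2, hp3⟩ := ih (s0 - τ y - 1) (by omega) y hy
          (fun hc => hxU (hU x hx y hy hxy hc)) (by omega) (by omega)
        exact ⟨p, hp1, hp2, htr _ _ _ hxy hp3⟩
  exact ⟨s0, hb0, hT, hs0, fun x hx hxU h1 h2 => key (s0 - τ x - 1) x hx hxU h1 (by omega)⟩

/-- The rigid cut lemma. There are a schedule and a slot `b` that is tight on both sides and stays
tight however the jobs up to `b` are rescheduled, as long as the jobs of slot `b` outside `U`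
stay in slot `b`. -/
theorem rigid (htr : ∀ x y z, R x y → R y z → R x z)
    (hU : ∀ x ∈ X, ∀ y ∈ X, R x y → y ∈ U → x ∈ U) (hP : ∀ p ∈ P, p ∉ U)
    {τ0 : V → ℕ} (h0 : Pin R m X P T τ0) :
    ∃ τ b, b ≤ T ∧ Pin R m X P T τ ∧ Tight R X U τ b ∧
      (∀ x ∈ X, x ∉ U → τ x < b → ∃ p ∈ X, τ p = b ∧ R x p) ∧
      ∀ σ, Pin R m (X.filter fun x => τ x ≤ b) (X.filter fun x => τ x = b ∧ x ∉ U) b σ →
        ∀ u ∈ X, u ∈ U → b < τ u → ∃ p ∈ X, τ p ≤ b ∧ σ p = b ∧ R p u := by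
  classical
  let good : ℕ → Prop := fun b => ∃ τ, Pin R m X P T τ ∧ Opt R m X P U T τ b ∧ Tight R X U τ b ∧
    ∀ x ∈ X, x ∉ U → τ x < b → ∃ p ∈ X, τ p = b ∧ R x p
  obtain ⟨b, hb, ⟨τ, h1, h2, h3, h4⟩, hmax⟩ : ∃ b ≤ T, good b ∧ ∀ s, b < s → s ≤ T → ¬ good s := by
    obtain ⟨τ, h1, h2⟩ := exists_opt h0 U T
    rw [Nat.sub_self] at h2
    obtain ⟨s, -, h3, h4, h5⟩ := h2.first htr hU h1 hP (Nat.zero_le _)
    exact ⟨Nat.findGreatest good T, Nat.findGreatest_le _, Nat.findGreatest_spec h3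
      ⟨τ, h1, fun t _ => h2 t (Nat.zero_le _), h4, fun x hx hxU => h5 x hx hxU (Nat.zero_le _)⟩,
      fun s h6 h7 => Nat.findGreatest_is_greatest h6 h7⟩
  refine ⟨τ, b, hb, h1, h3, h4, fun σ hσ u hu huU hbu => ?_⟩
  by_contra hc
  have hu' := h1.1.1 u hu
  have k1 := h1.1.mix hσ.1 (h1.1.suf b)
  rw [show b + 1 + (T - b) = T + 1 by omega] at k1
  generalize hρ : (fun x => if x ∈ X.filter (fun x => τ x ≤ b) then σ x
    else b + 1 + (τ x - (b + 1))) = ρ at k1
  have e1 : ∀ x ∈ X, τ x ≤ b → ρ x = σ x ∧ σ x ≤ b := fun x hx h => by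
    have : x ∈ X.filter fun x => τ x ≤ b := mem_filter.2 ⟨hx, h⟩
    exact ⟨by rw [← hρ]; exact if_pos this, Nat.le_of_lt_succ (hσ.1.1 x this)⟩
  have e2 : ∀ x, b < τ x → ρ x = τ x := fun x h => by
    have : x ∉ X.filter (fun x => τ x ≤ b) := fun a => by have := (mem_filter.1 a).2; omega
    rw [← hρ]
    simp only [if_neg this]
    omega
  have k2 : Pin R m X P T ρ := ⟨k1, fun p hp => by
    have := h1.2 p hp
    rw [e2 p (by omega), this]⟩
  have k3 : Opt R m X P U T ρ b := h2.congr fun t ht => by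
    unfold cnt
    congr 1
    refine filter_congr fun z hz => ?_
    by_cases a : τ z ≤ b
    · have := e1 z (mem_inter.1 hz).1 a
      omega
    · rw [e2 z (by omega)]
  obtain ⟨s, k4, k5, k6, k7⟩ := k3.first htr hU k2 hP hb
  have k8 : b < s := by
    refine lt_of_le_of_ne k4 fun e => hc ?_
    subst e
    obtain ⟨p, hp, a1, a2⟩ := k6 u hu huU (by rw [e2 u hbu]; exact hbu)
    have a3 : τ p ≤ b := by
      by_contra a
      have := e2 p (by omega)
      omega
    exact ⟨p, hp, a3, (e1 p hp a3).1 ▸ a1, a2⟩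
  refine hmax s k8 k5 ⟨ρ, k2, fun t ht => k3 t (by omega), k6, fun x hx hxU hxs => ?_⟩
  by_cases a : b ≤ ρ x
  · exact k7 x hx hxU a hxs
  have a1 : τ x ≤ b := by
    by_contra a1
    have := e2 x (by omega)
    omega
  have a2 : ∀ p ∈ X, τ p = b → p ∉ U → ρ p = b := fun p hp a2 a3 => by
    rw [(e1 p hp a2.le).1]
    exact hσ.2 p (mem_filter.2 ⟨hp, a2, a3⟩)
  obtain ⟨p, hp, a3, a4⟩ := h4 x hx hxU (lt_of_le_of_ne a1 fun e => a (a2 x hx e hxU).ge)
  have a5 : p ∉ U := fun h => hxU (hU x hx p hp a4 h)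
  have a6 := a2 p hp a3 a5
  obtain ⟨q, hq, a7, a8⟩ := k7 p hp a5 a6.ge (by omega)
  exact ⟨q, hq, a7, htr _ _ _ a4 a8⟩

end Vale.Agent.P324
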