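import Mathlib

/-! Schedules and the split lemma. -/

namespace Vale.Agent.P324

open Finset

variable {V : Type} [DecidableEq V] {R : V → V → Prop} {m : ℕ}

/-- `X` can be scheduled in the slots `0, …, T - 1` -/
def Fits (R : V → V → Prop) (m : ℕ) (X : Finset V) (T : ℕ) (τ : V → ℕ) : Prop :=
  (∀ x ∈ X, τ x < T) ∧ (∀ s, (X.filter (fun x => τ x = s)).card ≤ m) ∧
    ∀ x ∈ X, ∀ y ∈ X, R x y → τ x < τ y

def Sched (R : V → V → Prop) (m : ℕ) (X : Finset V) (T : ℕ) : Prop := ∃ τ, Fits R m X T τ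

omit [DecidableEq V] in
theorem Sched.mono {X Y : Finset V} {a b : ℕ} (h : Sched R m X a) (hY : Y ⊆ X) (hb : a ≤ b) :
    Sched R m Y b := by
  obtain ⟨τ, h1, h2, h3⟩ := h
  exact ⟨τ, fun x hx => (h1 x (hY hx)).trans_le hb,
    fun s => (card_le_card (filter_subset_filter _ hY)).trans (h2 s),
    fun x hx y hy => h3 x (hY hx) y (hY hy)⟩

omit [DecidableEq V] in
theorem sched_empty : Sched R m ∅ 0 := ⟨fun _ => 0, by simp, by simp, by simp⟩

omit [DecidableEq V] in
theorem Sched.eq_empty {X : Finset V} (h : Sched R m X 0) : X = ∅ := by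
  obtain ⟨τ, h1, -⟩ := h
  exact eq_empty_of_forall_notMem fun x hx => by simpa using h1 x hx

omit [DecidableEq V] in
theorem sched_one {S : Finset V} (h : S.card ≤ m) (h' : ∀ x ∈ S, ∀ y ∈ S, ¬ R x y) :
    Sched R m S 1 :=
  ⟨fun _ => 0, by simp, fun _ => (card_le_card (filter_subset _ _)).trans h,
    fun x hx y hy hr => (h' x hx y hy hr).elim⟩

theorem Sched.concat {A B : Finset V} {a b : ℕ} (hA : Sched R m A a) (hB : Sched R m B b)
    (h : ∀ x ∈ B, ∀ y ∈ A, ¬ R x y) : Sched R m (A ∪ B) (a + b) := by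
  obtain ⟨σ, h1, h2, h3⟩ := hA
  obtain ⟨τ, k1, k2, k3⟩ := hB
  refine ⟨fun x => if x ∈ A then σ x else a + τ x, fun x hx => ?_, fun s => ?_,
    fun x hx y hy hr => ?_⟩
  · by_cases hx' : x ∈ A
    · have := h1 x hx'; simp only [hx', if_true]; omega
    · have := k1 x (by simpa [hx'] using hx); simp only [hx', if_false]; omega
  · by_cases hs : s < a
    · refine (card_le_card fun x hx => ?_).trans (h2 s)
      rw [mem_filter] at hx ⊢
      by_cases hx' : x ∈ A
      · simpa [hx'] using hx.2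
      · have := hx.2; simp only [hx', if_false] at this; omega
    · refine (card_le_card fun x hx => ?_).trans (k2 (s - a))
      rw [mem_filter] at hx ⊢
      by_cases hx' : x ∈ A
      · have := hx.2; have := h1 x hx'; simp only [hx', if_true] at *; omega
      · have := hx.2; simp only [hx', if_false] at this
        exact ⟨by simpa [hx'] using hx.1, by omega⟩
  · by_cases hx' : x ∈ A <;> by_cases hy' : y ∈ A <;> simp only [hx', hy', if_true, if_false]
    · exact h3 x hx' y hy' hr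
    · have := h1 x hx'; omega
    · exact (h x (by simpa [hx'] using hx) y hy' hr).elim
    · have := k3 x (by simpa [hx'] using hx) y (by simpa [hy'] using hy) hr; omega

/-- exchanging two jobs -/
theorem Fits.swap {X : Finset V} {T : ℕ} {τ : V → ℕ} (h : Fits R m X T τ) {x u : V} (hx : x ∈ X)
    (hu : u ∈ X) (hlt : τ x < τ u) (h1 : ∀ p ∈ X, R p u → τ p < τ x)
    (h2 : ∀ y ∈ X, R x y → τ u < τ y) : Fits R m X T (fun z => τ (Equiv.swap x u z)) := by
  have hm : ∀ z ∈ X, Equiv.swap x u z ∈ X := by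
    intro z hz
    rw [Equiv.swap_apply_def]
    split_ifs <;> assumption
  refine ⟨fun z hz => h.1 _ (hm z hz), fun s => le_trans ?_ (h.2.1 s), fun y hy z hz hr => ?_⟩
  · refine card_le_card_of_injOn (Equiv.swap x u) (fun z hz => ?_) (Equiv.injective _).injOn
    simp only [coe_filter, Set.mem_ofPred_eq] at hz ⊢
    exact ⟨hm z hz.1, hz.2⟩
  · have e := h.2.2 y hy z hz hr
    simp only [Equiv.swap_apply_def]
    by_cases a1 : y = x <;> by_cases a2 : y = u <;> by_cases a3 : z = x <;>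
      by_cases a4 : z = u <;> subst_vars <;> simp only [*, if_true, if_false] <;>
      first
        | omega
        | (have := h1 _ hy hr; omega)

/-- The split lemma: for a down-closed `U` there is an optimal schedule with a slot `S` such that
each job before it is in `U` or precedes `S`, and each job after it is outside `U` or follows
`S`. -/
theorem split (htr : ∀ x y z, R x y → R y z → R x z) (U : Finset V)
    (hU : ∀ x y, R x y → y ∈ U → x ∈ U) {X : Finset V} {T : ℕ} (h : Sched R m X (T + 1)) :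
    ∃ (S A B : Finset V) (a b : ℕ), a + b ≤ T ∧ Sched R m A a ∧ Sched R m B b ∧ S.card ≤ m ∧
      X = A ∪ S ∪ B ∧ Disjoint A S ∧ Disjoint A B ∧ Disjoint S B ∧
      (∀ x ∈ S ∪ B, ∀ y ∈ A ∪ S, ¬ R x y) ∧
      (∀ x ∈ A, x ∈ U ∨ ∃ s ∈ S, R x s) ∧ (∀ x ∈ B, x ∉ U ∨ ∃ s ∈ S, R s x) := by
  classical
  obtain ⟨τ, hτ, hmin⟩ : ∃ τ, Fits R m X (T + 1) τ ∧
      ∀ σ, Fits R m X (T + 1) σ → ∑ x ∈ X ∩ U, τ x ≤ ∑ x ∈ X ∩ U, σ x := by
    obtain ⟨τ, hτ⟩ := h
    obtain ⟨σ, h1, h2⟩ := WellFounded.has_min (measure fun σ : V → ℕ => ∑ x ∈ X ∩ U, σ x).wf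
      {σ | Fits R m X (T + 1) σ} ⟨τ, hτ⟩
    exact ⟨σ, h1, fun ρ hρ => not_lt.1 (h2 ρ hρ)⟩
  let tight : ℕ → Prop := fun s => ∀ u ∈ X, u ∈ U → s < τ u → ∃ p ∈ X, τ p = s ∧ R p u
  have hex : ∃ s, tight s := ⟨T, fun u hu _ hs => by have := hτ.1 u hu; omega⟩
  obtain ⟨s0, hs0, hT, hfirst⟩ : ∃ s0, tight s0 ∧ s0 ≤ T ∧ ∀ s < s0, ¬ tight s :=
    ⟨Nat.find hex, Nat.find_spec hex,
      Nat.find_min' hex (fun u hu _ hs => by have := hτ.1 u hu; omega),
      fun s hs => Nat.find_min hex hs⟩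
  have key : ∀ d, ∀ x ∈ X, x ∉ U → τ x + d + 1 = s0 → ∃ p ∈ X, τ p = s0 ∧ R x p := by
    intro d
    induction d using Nat.strong_induction_on with
    | _ d ih =>
      intro x hx hxU hd
      have hn := hfirst (τ x) (by omega)
      simp only [tight, not_forall] at hn
      obtain ⟨u0, hu0, hu0U, hu0s, hu0p⟩ := hn
      obtain ⟨u, hu, humin⟩ := exists_min_image
        (X.filter fun u => u ∈ U ∧ τ x < τ u ∧ ¬ ∃ p ∈ X, τ p = τ x ∧ R p u) τ
        ⟨u0, by rw [mem_filter]; exact ⟨hu0, hu0U, hu0s, hu0p⟩⟩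
      rw [mem_filter] at hu
      obtain ⟨hu, huU, hus, hup⟩ := hu
      have hp : ∀ p ∈ X, R p u → τ p < τ x := by
        intro p hp hr
        by_contra hc
        have h1 : τ p ≠ τ x := fun e => hup ⟨p, hp, e, hr⟩
        have h2 := hτ.2.2 p hp u hu hr
        have h3 := humin p (by
          rw [mem_filter]
          exact ⟨hp, hU p u hr huU, by omega,
            fun ⟨q, hq, e, hq'⟩ => hup ⟨q, hq, e, htr _ _ _ hq' hr⟩⟩)
        omega
      have hu0 : τ u ≤ s0 := by
        by_contra hc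
        obtain ⟨p, hp1, hp2, hp3⟩ := hs0 u hu huU (by omega)
        have := hp p hp1 hp3
        omega
      obtain ⟨y, hy, hxy, hyu⟩ : ∃ y ∈ X, R x y ∧ τ y ≤ τ u := by
        by_contra hc
        push Not at hc
        have h1 := hmin _ (hτ.swap hx hu hus hp hc)
        have h2 : ∑ z ∈ X ∩ U, τ (Equiv.swap x u z) < ∑ z ∈ X ∩ U, τ z := by
          refine sum_lt_sum (fun z hz => ?_) ⟨u, by simp [hu, huU], by simpa using hus⟩
          have : z ≠ x := fun e => hxU (e ▸ (mem_inter.1 hz).2)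
          by_cases e : z = u
          · subst e; simpa using hus.le
          · rw [Equiv.swap_apply_of_ne_of_ne this e]
        omega
      have h4 := hτ.2.2 x hx y hy hxy
      by_cases e : τ y = s0
      · exact ⟨y, hy, e, hxy⟩
      · obtain ⟨p, hp1, hp2, hp3⟩ := ih (s0 - τ y - 1) (by omega) y hy
          (fun hc => hxU (hU x y hxy hc)) (by omega)
        exact ⟨p, hp1, hp2, htr _ _ _ hxy hp3⟩
  refine ⟨X.filter (fun x => τ x = s0), X.filter (fun x => τ x < s0), X.filter (fun x => s0 < τ x),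
    s0, T - s0, by omega, ⟨τ, fun x hx => (mem_filter.1 hx).2, fun s => ?_, fun x hx y hy => ?_⟩,
    ⟨fun x => τ x - (s0 + 1), fun x hx => ?_, fun s => ?_, fun x hx y hy hr => ?_⟩, hτ.2.1 s0,
    ?_, ?_, ?_, ?_, fun x hx y hy hr => ?_, fun x hx => ?_, fun x hx => ?_⟩
  · exact (card_le_card (filter_subset_filter _ (filter_subset _ _))).trans (hτ.2.1 s)
  · exact hτ.2.2 x (mem_filter.1 hx).1 y (mem_filter.1 hy).1
  · rw [mem_filter] at hx
    have := hτ.1 x hx.1
    simp only
    omega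
  · refine (card_le_card fun x hx => ?_).trans (hτ.2.1 (s + (s0 + 1)))
    simp only [mem_filter] at hx ⊢
    exact ⟨hx.1.1, by omega⟩
  · rw [mem_filter] at hx hy
    have := hτ.2.2 x hx.1 y hy.1 hr
    simp only
    omega
  · ext x
    simp only [mem_union, mem_filter]
    constructor
    · intro hx
      rcases lt_trichotomy (τ x) s0 with h | h | h <;> simp [hx, h]
    · rintro ((h | h) | h) <;> exact h.1
  · rw [disjoint_filter]; intro x _ h; omega
  · rw [disjoint_filter]; intro x _ h; omega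
  · rw [disjoint_filter]; intro x _ h; omega
  · simp only [mem_union, mem_filter] at hx hy
    have := hτ.2.2 x (by tauto) y (by tauto) hr
    omega
  · rw [mem_filter] at hx
    by_cases hxU : x ∈ U
    · exact Or.inl hxU
    · obtain ⟨p, h1, h2, h3⟩ := key (s0 - τ x - 1) x hx.1 hxU (by omega)
      exact Or.inr ⟨p, mem_filter.2 ⟨h1, h2⟩, h3⟩
  · rw [mem_filter] at hx
    by_cases hxU : x ∈ U
    · obtain ⟨p, h1, h2, h3⟩ := hs0 x hx.1 hxU hx.2
      exact Or.inr ⟨p, mem_filter.2 ⟨h1, h2⟩, h3⟩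
    · exact Or.inl hxU

end Vale.Agent.P324
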